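import Crest.Agent.X262.Coh.Defs
import Crest.Agent.X277.AN.G1Gaga
import Crest.Agent.X277.AN.G1Can
import Crest.Agent.X262.Kah.BunB
import Crest.Agent.X262.Kah.FibB
import Crest.Agent.R275.FmP_96

-- ▼ part X262/Q74/Alg
section

/-!
# Row 262, COH (helper74): holomorphic one-forms are algebraic, in coordinates

* `cf X b α a ω` : the coefficient of `d z α a` in the rational one-form `ω`;
* `mem_R1_iff`   : regular one-forms have regular coefficients;
* `H1 X c`       : `c` are the coefficients of a holomorphic one-form;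
* `h1_of_mem`, `gaga1`, `eq_zero_of_ev`.
-/

set_option autoImplicit false

open Set Filter Topology Module
open scoped KaehlerDifferential

noncomputable section

namespace Crest.Agent.X262.Q74

open Crest.Agent.X277.Lef Crest.Agent.X277.AN.G1 Crest.Agent.X277.AN.G1.AnP
open Crest.Agent.R275.Geo Crest.Agent.R275.Core144
open Crest.Agent.X262.Coh (sv)
open KaehlerDifferential (D)

variable {F : Type} [Field F] [Algebra ℂ F] {P : PModel ℂ F} {n : ℕ} (X : AnP P n)
  (b : Basis (Fin n) F Ω[F⁄ℂ])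

open Classical in
/-- the coefficients of a rational one-form in a chart -/
def cf (α : X.A.ι) (a : Fin n) : Ω[F⁄ℂ] →ₗ[F] F :=
  if h : jac b (X.z α) ≠ 0 then (dBasis h).coord a else 0

/-- the coefficients of a holomorphic one-form -/
structure H1 (c : X.A.ι → Fin n → Pts P → ℂ) : Prop where
  hol : ∀ α a, HolAt X.A α univ (c α a)
  tr : ∀ α β, ∀ x ∈ (X.A.e α).source ∩ (X.A.e β).source, ∀ a,
    c α a x = ∑ l, c β l x * X.A.J α β x l a

variable {X} {α β : X.A.ι} {x y : Pts P} {ω : Ω[F⁄ℂ]} {c : X.A.ι → Fin n → Pts P → ℂ}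

theorem cf_eq (hx : x ∈ (X.A.e α).source) (a : Fin n) :
    cf X b α a = (dBasis (jac_z_ne b hx)).coord a := dif_pos _

theorem cf_D (hx : x ∈ (X.A.e α).source) (a : Fin n) (f : F) :
    cf X b α a (D ℂ F f) = pd b (X.z α) a f := by
  rw [cf_eq b hx, ← pdD_apply (jac_z_ne b hx)]
  rfl

theorem sum_cf (hx : x ∈ (X.A.e α).source) (ω : Ω[F⁄ℂ]) :
    ∑ a, cf X b α a ω • D ℂ F (X.z α a) = ω := by
  have h := (dBasis (jac_z_ne b hx)).sum_repr ω
  simp only [dBasis_apply] at h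
  simpa only [cf_eq b hx, Basis.coord_apply] using h


theorem cf_tr (hx : x ∈ (X.A.e α).source) (hy : y ∈ (X.A.e β).source) (a : Fin n) (ω : Ω[F⁄ℂ]) :
    cf X b α a ω = ∑ l, cf X b β l ω * pd b (X.z α) a (X.z β l) := by
  conv_lhs => rw [← sum_cf b hy ω]
  simp only [map_sum, map_smul, cf_D b hx, smul_eq_mul]

theorem J_eq (hx : x ∈ (X.A.e α).source ∩ (X.A.e β).source) (l a : Fin n) :
    X.A.J α β x l a = ev (pd b (X.z α) a (X.z β l)) x :=
  (Jm_dv hx l a).trans (dv_single b hx.1 (z_mem hx.2 l) a)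

theorem mem_R1_iff : ω ∈ (sv P).R1 ↔
    ∀ α, ∀ x ∈ (X.A.e α).source, ∀ a, cf X b α a ω ∈ (lp x).O := by
  rw [Coh.SV.R1, Submodule.mem_iInf]
  refine ⟨fun h α x hx a => ?_, fun h x => ?_⟩
  · refine Submodule.span_induction (p := fun η _ => cf X b α a η ∈ (lp x).O) ?_ ?_ ?_ ?_ (h x)
    · rintro _ ⟨f, hf, g, hg, rfl⟩
      rw [map_smul, cf_D b hx]
      exact mul_mem hf (pd_z_mem b hx a hg)
    · rw [map_zero]
      exact zero_mem _
    · intro η η' _ _ h1 h2
      rw [map_add]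
      exact add_mem h1 h2
    · intro r η _ h1
      rw [LinearMap.map_smul_of_tower]
      exact Subalgebra.smul_mem _ h1 r
  · obtain ⟨α, hx⟩ := X.A.cover x
    rw [← sum_cf b hx ω]
    exact Submodule.sum_mem _ fun a _ =>
      Submodule.subset_span ⟨_, h α x hx a, _, z_mem hx a, rfl⟩

theorem h1_of_mem (h : ω ∈ (sv P).R1) : H1 X fun α a => ev (cf X b α a ω) where
  hol α a := holAt fun x hx _ => (mem_R1_iff b).1 h α x hx a
  tr α β x hx a := by
    have h1 := (mem_R1_iff (X := X) b).1 h β x hx.2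
    have h2 := fun l => pd_z_mem b hx.1 a (z_mem hx.2 l)
    rw [cf_tr b hx.1 hx.2, ev, LP.v_sum _ fun l _ => mul_mem (h1 l) (h2 l)]
    exact Finset.sum_congr rfl fun l _ => by rw [(lp x).v_mul (h1 l) (h2 l), J_eq b hx]

theorem eq_zero_of_ev (h : ∀ α, ∀ x ∈ (X.A.e α).source, ∀ a, ev (cf X b α a ω) x = 0) :
    ω = 0 := by
  obtain ⟨x⟩ : Nonempty (Pts P) := inferInstance
  obtain ⟨α, hx⟩ := X.A.cover x
  rw [← sum_cf b hx ω]
  refine Finset.sum_eq_zero fun a _ => ?_
  rw [X.eq_of_ev (X.A.e α).open_source ⟨x, hx⟩ (f := cf X b α a ω) (g := 0)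
    fun y hy => (h α y hy a).trans (lp y).v_zero.symm, zero_smul]

include b in
/-- the value of a holomorphic one-form on a rational vector field is rational -/
theorem H1.exists_val (hc : H1 X c) (θ : Ω[F⁄ℂ] →ₗ[F] F) : ∃ w : F, ∀ α,
    ∀ y ∈ (X.A.e α).source, (∀ l, θ (D ℂ F (X.z α l)) ∈ (lp y).O) →
      w ∈ (lp y).O ∧ ∑ l, c α l y * ev (θ (D ℂ F (X.z α l))) y = ev w y := by
  classical
  obtain ⟨g, hg, e, he⟩ := exists_tw_mem P fun p : X.A.ι × Fin n => θ (D ℂ F (X.z p.1 p.2))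
  have hG : g * P.y 0 ^ e ≠ 0 := mul_ne_zero hg (pow_ne_zero _ (P.y_ne 0))
  replace he := he e le_rfl
  generalize g * P.y 0 ^ e = G at he hG
  let k : X.A.ι → Fin n → F := fun α l => G * θ (D ℂ F (X.z α l)) / P.y (X.r α) ^ e
  have hk : ∀ α, ∀ x ∈ (X.A.e α).source, ∀ l, k α l ∈ (lp x).O := fun α x hx l =>
    A_le hx (he (α, l) _)
  have hs : IsHS (X.lbF (X.yF ^ e)) univ fun α x =>
      if x ∈ (X.A.e α).source then ∑ l, c α l x * ev (k α l) x else 0 := by
    refine ⟨fun α => (HolAt.sum _ fun l _ => (hc.hol α l).mul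
      (holAt fun x hx _ => hk α x hx l)).congr fun x hx _ => (if_pos hx).symm,
      fun α x hx => if_neg hx, fun α β x hx _ => ?_⟩
    have h1 := fun m l => pd_z_mem b hx.1 l (z_mem hx.2 m)
    have h2 : ∀ m, ∑ l, pd b (X.z α) l (X.z β m) * k α l =
        fr (X.yF ^ e) β / fr (X.yF ^ e) α * k β m := fun m => by
      have h3 := pow_ne_zero e (P.y_ne (X.r β))
      simp only [k, fr_pow, fr_yF]
      rw [D_eq_pd (jac_z_ne b hx.1) (X.z β m), map_sum, div_mul_div_comm, mul_comm _ (G * _),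
        mul_div_mul_right _ _ h3, Finset.mul_sum, Finset.sum_div]
      exact Finset.sum_congr rfl fun l _ => by rw [map_smul, smul_eq_mul]; ring
    rw [if_pos hx.1, if_pos hx.2, lbF_g _ hx, Finset.mul_sum]
    simp only [hc.tr α β x hx, J_eq b hx, Finset.sum_mul]
    rw [Finset.sum_comm]
    refine Finset.sum_congr rfl fun m _ => ?_
    rw [mul_left_comm, ← (lp x).v_mul (fr_div_mem _ hx) (hk β x hx.2 m), ← h2,
      LP.v_sum _ fun l _ => mul_mem (h1 m l) (hk α x hx.1 l), Finset.mul_sum]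
    exact Finset.sum_congr rfl fun l _ => by
      rw [(lp x).v_mul (h1 m l) (hk α x hx.1 l), mul_assoc]
  obtain ⟨f, hf, hfs⟩ := gaga _ hs
  refine ⟨f / G, fun α y hy hθ => ?_⟩
  have hU : IsOpen (⋂ l, reg P (θ (D ℂ F (X.z α l)))) :=
    isOpen_iInter_of_finite fun l => isOpen_reg _
  have hh : HolAt X.A α (⋂ l, reg P (θ (D ℂ F (X.z α l))))
      fun y => ∑ l, c α l y * ev (θ (D ℂ F (X.z α l))) y := HolAt.sum _ fun l _ =>
    ((hc.hol α l).mono (subset_univ _)).mul (holAt fun x _ hx => mem_iInter.1 hx l)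
  have hd : G / P.y (X.r α) ^ e ≠ 0 := div_ne_zero hG (pow_ne_zero _ (P.y_ne _))
  have key : ∀ x ∈ ⋂ l, reg P (θ (D ℂ F (X.z α l))), x ∈ (X.A.e α).source →
      ev (G / P.y (X.r α) ^ e) x ≠ 0 → f / G ∈ (lp x).O →
      ∑ l, c α l x * ev (θ (D ℂ F (X.z α l))) x = ev (f / G) x := fun x hU hx h0 _ => by
    have h1 := congrFun (congrFun hfs α) x
    rw [if_pos hx, sec_eq _ _ hx] at h1
    have h2 : f / G = f / fr (X.yF ^ e) α / (G / P.y (X.r α) ^ e) := by
      rw [fr_pow, fr_yF, div_div_div_cancel_right₀ (pow_ne_zero _ (P.y_ne _))]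
    rw [h2, ev, LP.v_div (hf α x hx trivial) h0, eq_div_iff h0, Finset.sum_mul]
    refine Eq.trans (Finset.sum_congr rfl fun l _ => ?_) h1
    rw [mul_assoc, ← (lp x).v_mul (mem_iInter.1 hU l) (LP.mem_of_ne h0)]
    simp only [k]
    congr 2
    ring
  exact ⟨mem_of_hol' hy hU (mem_iInter.2 hθ) hh hd key,
    eq_ev_of_hol' hy hU (mem_iInter.2 hθ) hh hd key⟩

/-- **holomorphic one-forms are algebraic** -/
theorem gaga1 (hc : H1 X c) : ∃ ω ∈ (sv P).R1,
    ∀ α, ∀ x ∈ (X.A.e α).source, ∀ a, c α a x = ev (cf X b α a ω) x := by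
  classical
  choose w hw using hc.exists_val b
  have h1 : ∀ α, ∀ x ∈ (X.A.e α).source, ∀ a,
      w (cf X b α a) ∈ (lp x).O ∧ c α a x = ev (w (cf X b α a)) x := fun α x hx a => by
    have h2 : ∀ l, cf X b α a (D ℂ F (X.z α l)) = if a = l then 1 else 0 := fun l => by
      rw [cf_D b hx, pd_self (jac_z_ne b hx)]
    obtain ⟨h3, h4⟩ := hw (cf X b α a) α x hx fun l => by
      rw [h2]
      split_ifs
      exacts [one_mem _, zero_mem _]
    refine ⟨h3, Eq.trans ?_ h4⟩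
    rw [Finset.sum_eq_single a (fun l _ hl => by simp [h2, hl.symm]) (by simp)]
    simp [h2]
  obtain ⟨x₀⟩ : Nonempty (Pts P) := inferInstance
  obtain ⟨α₀, hx₀⟩ := X.A.cover x₀
  have h2 : ∀ α a, cf X b α a (∑ l, w (cf X b α₀ l) • D ℂ F (X.z α₀ l)) = w (cf X b α a) := by
    intro α a
    have hd : Dense (⋂ l, reg P (cf X b α a (D ℂ F (X.z α₀ l)))) :=
      dense_iInter_of_isOpen (fun l => isOpen_reg _) fun l => X.dense_reg _
    obtain ⟨y, hy, hy'⟩ := hd.inter_open_nonempty _ (X.A.e α₀).open_source ⟨x₀, hx₀⟩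
    refine X.eq_of_ev ((X.A.e α₀).open_source.inter
      (isOpen_iInter_of_finite fun l => isOpen_reg _)) ⟨y, hy, hy'⟩ fun x hx => ?_
    have h3 := mem_iInter.1 hx.2
    rw [← (hw _ α₀ x hx.1 h3).2, map_sum, ev, LP.v_sum _ fun l _ => by
      rw [map_smul]; exact mul_mem (h1 α₀ x hx.1 l).1 (h3 l)]
    exact Finset.sum_congr rfl fun l _ => by
      rw [map_smul, smul_eq_mul, (lp x).v_mul (h1 α₀ x hx.1 l).1 (h3 l), (h1 α₀ x hx.1 l).2]
  exact ⟨_, (mem_R1_iff b).2 fun α x hx a => h2 α a ▸ (h1 α x hx a).1,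
    fun α x hx a => (h2 α a).symm ▸ (h1 α x hx a).2⟩

end Crest.Agent.X262.Q74
end
end

-- ▼ part X262/Q74/Hol

/-!
# Row 262, COH (helper74): regular one-forms and holomorphic one-forms

* `IsH1 u`  : `u : FS A` is of type `(1,0)` and `∂̄`-closed;
* `fm X b : R1 →ₗ FS X.A`, injective with range the holomorphic one-forms; `finrank_eq`.
-/

set_option autoImplicit false

open Set Filter Topology Module
open scoped KaehlerDifferential ContDiff

noncomputable section

namespace Crest.Agent.X262.Q74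

open Crest.Agent.X277.Lef Crest.Agent.X277.AN.G1 Crest.Agent.X277.AN.G1.AnP
open Crest.Agent.R275.Geo Crest.Agent.R275.Core144
open Crest.Agent.R208.F Crest.Agent.R208.CW
open Crest.Agent.X262.Kah Crest.Agent.X262.Kah.Fib
open Crest.Agent.X262.Coh (sv)

section Fib

variable {n : ℕ}

/-- the coefficient of `dz a` -/
def co (a : Fin n) : Fb n →ₗ[ℂ] ℂ := au ∘ₗ iz a

theorem co_dz (a l : Fin n) : co a (dz l) = if a = l then 1 else 0 := by
  have h := congrArg au (ct_th (n := n) (.inl a) (.inl l))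
  rw [apply_ite au, au_one, map_zero] at h
  simpa [co] using h

theorem co_sum (k : Fin n → ℂ) (a : Fin n) : co a (∑ l, k l • dz l) = k a := by
  simp [co_dz]

theorem sum_co {x : Fb n} (hx : x ∈ Ty 1 0) : ∑ a, co a x • dz a = x := by
  have h := hx.1
  rw [Nz_apply, Nat.cast_one, one_smul] at h
  refine Eq.trans (Finset.sum_congr rfl fun a _ => ?_) h
  rw [Ty.eq_au (Ty.iz_mem a hx), mul_smul_comm, mul_one]
  rfl

theorem sum_dz_mem (k : Fin n → ℂ) : ∑ l, k l • dz l ∈ Ty 1 0 :=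
  Submodule.sum_mem _ fun l _ => Submodule.smul_mem _ _ (dz_mem l)

/-- the coefficients of a `∂̄`-closed form of type `(p,0)` are holomorphic -/
theorem pzbC_eq_zero {om : Cn n → Fb n} {z : Cn n} {p : ℕ} (h : CD 1 om z)
    (ht : ∀ᶠ y in 𝓝 z, om y ∈ Ty p 0) (h0 : dbC om z = 0) (a : Fin n) : pzbC a om z = 0 := by
  have h1 : ∀ l, izb a (pzbC l om z) = 0 := fun l => by
    rw [← pzbC_lin _ _ h, pzbC_congr l (η := fun _ => 0) (ht.mono fun y hy => Ty.izb_eq_zero a hy),
      pzbC_const]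
  have h2 := congrArg (izb a) h0
  simp only [dbC, map_sum, map_zero, ← th_inr, ← ct_inr, ct_th_mul] at h2
  simpa [h1] using h2

end Fib

section Atl

variable {n : ℕ} {M : Type} [TopologicalSpace M] {A : Atl n M}

/-- holomorphic one-forms -/
def IsH1 (u : FS A) : Prop :=
  (∀ i, ∀ z ∈ (A.e i).target, u.1 i z ∈ Ty 1 0) ∧ dbF A u = 0

theorem Dtr_I {i j : A.ι} {z : Cn n} (hz : z ∈ A.ov i j) (v : Cn n) :
    Dtr A i j z (Complex.I • v) = Complex.I • Dtr A i j z v := by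
  rw [Dtr_eq hz]
  exact map_smul (fderiv ℂ (tr A i j) z) Complex.I v

theorem pbC_sum_dz {i j : A.ι} {z : Cn n} (hz : z ∈ A.ov i j) (k : Fin n → ℂ) :
    pbC (Dtr A i j z) (∑ l, k l • dz l) =
      ∑ a, (∑ l, k l * A.J i j ((A.e i).symm z) l a) • dz a := by
  simp only [map_sum, pbC_smul, pbC_dz (Dtr_I hz), Finset.smul_sum, Finset.sum_smul, smul_smul]
  rw [Finset.sum_comm]
  refine Finset.sum_congr rfl fun a _ => Finset.sum_congr rfl fun l _ => ?_
  rw [Dtr_eq hz, Atl.J, (A.e i).right_inv hz.1]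
  rfl

theorem holAt_fun {u : FS A} {p : ℕ} (ht : ∀ i, ∀ z ∈ (A.e i).target, u.1 i z ∈ Ty p 0)
    (h0 : dbF A u = 0) (t : Fb n →ₗ[ℂ] ℂ) (i : A.ι) :
    HolAt A i univ fun x => t (u.1 i (A.e i x)) := fun z hz => by
  have hn := (A.e i).open_target.mem_nhds hz.1
  have h1 : DifferentiableAt ℂ (fun y => t (u.1 i y)) z :=
    R275.Fm96.differentiableAt_of_dbj ((CD_fun t (u.sm1 hz.1)).differentiableAt one_ne_zero)
      fun a => by
        rw [dbj_fun t a (u.sm1 hz.1), pzbC_eq_zero (u.sm1 hz.1) (mem_of_superset hn (ht i))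
          (by rw [← dbF_apply u hz.1, h0]; rfl), map_zero]
  refine (h1.congr_of_eventuallyEq ?_).differentiableWithinAt
  filter_upwards [hn] with y hy
  rw [(A.e i).right_inv hy]

end Atl

variable {F : Type} [Field F] [Algebra ℂ F] {P : PModel ℂ F} {n : ℕ} {X : AnP P n}
  (b : Basis (Fin n) F Ω[F⁄ℂ]) {c : X.A.ι → Fin n → Pts P → ℂ} {u : FS X.A} {i : X.A.ι} {z : Cn n}

theorem H1.sm (hc : H1 X c) (hz : z ∈ (X.A.e i).target) (a : Fin n) :
    ContDiffAt ℝ ∞ (fun w => c i a ((X.A.e i).symm w)) z :=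
  ((hc.hol i a).contDiffOn isOpen_univ).contDiffAt ((isOpen_ti isOpen_univ).mem_nhds ⟨hz, trivial⟩)

/-- the form with given coefficients -/
def H1.form (hc : H1 X c) : FS X.A :=
  FS.mk' (fun i z => ∑ a, c i a ((X.A.e i).symm z) • dz a)
    (fun _ _ hz => CD.sum fun a _ => CD_fsmul (hc.sm hz a) (CD.const _)) fun i j z hz => by
      rw [pbC_sum_dz hz, symm_tr hz]
      exact Finset.sum_congr rfl fun a _ => by
        rw [hc.tr i j _ ⟨(X.A.e i).map_target hz.1, hz.2⟩]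

theorem H1.form_apply (hc : H1 X c) (hz : z ∈ (X.A.e i).target) :
    hc.form.1 i z = ∑ a, c i a ((X.A.e i).symm z) • dz a := FS.mk'_apply hz

theorem H1.isH1 (hc : H1 X c) : IsH1 hc.form := by
  refine ⟨fun i z hz => hc.form_apply hz ▸ sum_dz_mem _, FS.ext' fun i z hz => ?_⟩
  rw [dbF_apply _ hz, H1.form, dbC_congr (FS.mk'_ev hz),
    dbC_sum _ fun a _ => CD_fsmul ((hc.sm hz a).of_le one_le_inf) (CD.const _)]
  refine Finset.sum_eq_zero fun a _ => ?_
  have h1 : DifferentiableAt ℂ (fun w => c i a ((X.A.e i).symm w)) z :=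
    (hc.hol i a).differentiableAt ((isOpen_ti isOpen_univ).mem_nhds ⟨hz, trivial⟩)
  rw [dbC_fsmul ((hc.sm hz a).of_le one_le_inf) (CD.const _), dbC_const]
  simp [R275.Fm96.dbj_hol h1]

theorem IsH1.h1 (h : IsH1 u) : H1 X fun i a x => co a (u.1 i (X.A.e i x)) where
  hol i a := holAt_fun h.1 h.2 (co a) i
  tr i j x hx a := by
    rw [u.tr' (Kah.mem_ov hx), tr_e hx.1, ← sum_co (h.1 j _ ((X.A.e j).map_source hx.2)),
      pbC_sum_dz (Kah.mem_ov hx), co_sum, (X.A.e i).left_inv hx.1]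
    simp only [co_sum]

variable (X) in
/-- the holomorphic form of a regular one-form -/
def fm : (sv P).R1 →ₗ[ℂ] FS X.A where
  toFun w := (h1_of_mem b w.2).form
  map_add' w η := FS.ext' fun i z hz => by
    have hx := (X.A.e i).map_target hz
    rw [FS.add_apply, H1.form_apply _ hz, H1.form_apply _ hz, H1.form_apply _ hz,
      ← Finset.sum_add_distrib]
    refine Finset.sum_congr rfl fun a _ => ?_
    rw [← add_smul, Submodule.coe_add, map_add]
    exact congrArg (· • dz a) ((X277.AN.G1.lp _).v_add ((mem_R1_iff b).1 w.2 i _ hx a)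
      ((mem_R1_iff b).1 η.2 i _ hx a))
  map_smul' r w := FS.ext' fun i z hz => by
    have hx := (X.A.e i).map_target hz
    rw [RingHom.id_apply, FS.smul_apply, H1.form_apply _ hz, H1.form_apply _ hz, Finset.smul_sum]
    refine Finset.sum_congr rfl fun a _ => ?_
    rw [smul_smul, Submodule.coe_smul, LinearMap.map_smul_of_tower, ev,
      LP.v_smul r ((mem_R1_iff b).1 w.2 i _ hx a)]

theorem fm_apply (w : (sv P).R1) (hz : z ∈ (X.A.e i).target) :
    (fm X b w).1 i z = ∑ a, ev (cf X b i a w.1) ((X.A.e i).symm z) • dz a :=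
  (h1_of_mem b w.2).form_apply hz

theorem isH1_fm (w : (sv P).R1) : IsH1 (fm X b w) := (h1_of_mem b w.2).isH1

theorem fm_injective : Function.Injective (fm X b) := by
  refine (injective_iff_map_eq_zero _).2 fun w h => Subtype.ext (eq_zero_of_ev (X := X) b
    fun i x hx a => ?_)
  have h1 := congrArg (co a) (fm_apply b w ((X.A.e i).map_source hx))
  rw [co_sum, (X.A.e i).left_inv hx, h] at h1
  exact h1.symm.trans (map_zero _)

/-- **holomorphic one-forms are regular one-forms** -/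
theorem mem_range_fm : u ∈ LinearMap.range (fm X b) ↔ IsH1 u := by
  refine ⟨fun ⟨w, h⟩ => h ▸ isH1_fm b w, fun h => ?_⟩
  obtain ⟨w, hw, h1⟩ := gaga1 b h.h1
  refine ⟨⟨w, hw⟩, FS.ext' fun i z hz => ?_⟩
  rw [fm_apply b _ hz, ← sum_co (h.1 i z hz)]
  refine Finset.sum_congr rfl fun a _ => ?_
  rw [← h1 i _ ((X.A.e i).map_target hz) a, (X.A.e i).right_inv hz]

include b in
theorem finrank_eq (S : Submodule ℂ (FS X.A)) (hS : ∀ u, u ∈ S ↔ IsH1 u) :
    finrank ℂ S = finrank ℂ (sv P).R1 := by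
  rw [show S = LinearMap.range (fm X b) from Submodule.ext fun u => (hS u).trans
    (mem_range_fm b).symm, LinearMap.finrank_range_of_inj (fm_injective b)]

include b in
theorem IsH1.eq_zero (h : IsH1 u) (h0 : (sv P).R1 = ⊥) : u = 0 := by
  obtain ⟨w, rfl⟩ := (mem_range_fm b).2 h
  rw [show w = 0 from Subtype.ext ((Submodule.mem_bot ℂ).1 (h0 ▸ w.2)), map_zero]


end Crest.Agent.X262.Q74
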