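import Crest.Agent.X262.PL.C1
import Crest.Agent.X262.Form88.Snc
import Crest.Agent.X277.GF.Prj
import Crest.Agent.X262.PD.Cx
import Crest.Agent.X262.Man.Ori
import Crest.Agent.X262.Man.Th
import Crest.Agent.X262.Coh.Basic
import Crest.Agent.X277.Cns.Jac
import Crest.Agent.X262.Man.Pt
import Crest.Agent.X262.Kah.ClsT
import Crest.Agent.X262.Irr93.Bet
import Crest.Agent.R275.EDRAtl_890
import Crest.Agent.X277.AN.G1Gaga
import Crest.Agent.R208.CM3b
import Crest.Agent.X262.Noe83.Main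
import Crest.Agent.X262.Kah.ClsD
import Crest.Agent.X262.RR.Main
import Crest.Agent.X262.Q74.Hol
import Crest.Agent.X262.Kah.BunE
import Crest.Agent.X262.Kah.BrgA
import Crest.Agent.X262.Irr93.Hpq
import Crest.Agent.X262.Man.PM

-- ▼ part X262/PL/C1S
section

/-!
# Row 262, PL (helper92), part C1S: the singular connection form of an effective divisor

* `Crv.exists_sg`, `sg_c1` : a form `θ`, smooth off the support, with `θ = ang t + smooth` near
  every point, `t` a local equation.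
-/

set_option autoImplicit false
set_option linter.unusedSectionVars false

open Set Filter Topology Module
open scoped ContDiff
open Crest.Agent.R208.F Crest.Agent.R208.FI Crest.Agent.R208.CW Crest.Agent.R208.T
open Crest.Agent.X277 Crest.Agent.X277.Lef Crest.Agent.X277.AN.G1 Crest.Agent.X277.BD
  Crest.Agent.X277.BD.Br
open Crest.Agent.X262.Man

noncomputable section

namespace Crest.Agent.X262.PL

variable {F : Type} [Field F] [Algebra ℂ F] {P : PModel ℂ F} {a : BD ℂ F}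
  {c : Hm P.N → Ext (Hm P.N)}

theorem mem_of_at (h0 : 0 ≤ a) {x : Pts P} {t : F} (ht : At a x t⁻¹) : t ∈ (lp x).O := by
  simpa using (at_zero x).div_mem_of_le ht h0

theorem Crv.exists_sg (h : Crv P a c) (h0 : 0 ≤ a) : ∃ θ : Hm P.N → Ext (Hm P.N), Hom 1 θ ∧
    (∀ x : Pts P, At a x 1 → ContDiffAt ℝ ∞ θ (jP P x)) ∧
    ∀ (x : Pts P) (t : F), At a x t⁻¹ → Sg (XP P) θ c (fa P t) (jP P x) := by
  obtain ⟨g, α, h⟩ := h
  obtain ⟨θ, hθ⟩ := glue (em P) (isOpen_at a 1)
    (t := fun y => {b | IsDeg 1 b} ∩ (rP y).toLinearMap ⁻¹' {om g α y 1})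
    (fun y _ => Convex.inter (fun _ hb _ hb' r s _ _ _ => (IsDeg.smul hb r).add (IsDeg.smul hb' s))
      ((convex_singleton _).linear_preimage _)) fun x hx => by
      obtain ⟨β, h1, h2⟩ := h.loc' hx
      exact ⟨β, h2.mono fun y hy => ⟨hy.2.1, h1 _, hy.2.2.2⟩⟩
  refine ⟨dp 1 θ, hom_dp 1 θ, fun x hx =>
    (dplL (E := Hm P.N) 1).contDiff.contDiffAt.comp _ (hθ x hx).1, fun x t ht => ?_⟩
  obtain ⟨β, h1, h2⟩ := h.loc' ht
  refine ⟨β, ev_XP.2 (h2.mono fun y hy => ?_)⟩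
  have h3 := mem_of_at h0 hy.1
  refine ⟨fa_sm h3, hy.2.1, inv_of_one (h1 _), hy.2.2.1, fun h4 => ?_⟩
  have h5 : At a y 1 := hy.1.of_ev' (by rwa [one_div, _root_.inv_inv, ← fa_j h3])
  have h6 : dp 1 θ (jP P y) = θ (jP P y) := dpl_of_isDeg (hθ y h5).2.1
  have h7 : rP y (θ (jP P y)) = om g α y 1 := (hθ y h5).2.2
  have h8 := h.om_chg hy.1 h5
  rw [one_div, _root_.inv_inv, ← hy.2.2.2, add_comm (rP y _)] at h8
  rw [h6]
  exact (h7.trans h8).trans (map_add _ _ _).symm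


end Crest.Agent.X262.PL
end
end

-- ▼ part X262/PL/Div
section

/-!
# Row 262, PL (helper92), part Div: smooth divisors on projective models

* `dv_map`, `inj_rd`, `IsDv.dv_ne` : differentials of regular functions along a morphism;
* `dvP`, `lEqP`, `exists_th` : a smooth divisor gives `Dv`, `LEq`, `Th`;
* `pl0I`, `pl0`, `bc1`, `bc2` for `thOf typ c1 Lam`.
-/

set_option autoImplicit false
set_option linter.unusedSectionVars false

open Set Filter Topology Module
open scoped ContDiff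
open Crest.Agent.R208.F Crest.Agent.R208.FI Crest.Agent.R208.CW Crest.Agent.R208.T
open Crest.Agent.R273.Map_835 (rd mem_dm)
open Crest.Agent.X277 Crest.Agent.X277.Lef Crest.Agent.X277.AN.G1 Crest.Agent.X277.BD
  Crest.Agent.X277.BD.Br
open Crest.Agent.X262.Man Crest.Agent.X262.Coh

noncomputable section

namespace Crest.Agent.X262.PL

section Loc

variable {F K : Type} [Field F] [Algebra ℂ F] [Field K] [Algebra ℂ K] {P : PModel ℂ F}
  {P' : PModel ℂ K} {n m : ℕ}

theorem cori_an (A : AnP P n) : (emb A).COri (em P).ori := by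
  obtain rfl := Man.dim_eq A
  exact cori_emb (em P).cori

theorem integ_eq_intP {k : ℕ} (hk : k = 2 * dim ℂ F) (hc : Clo k (XP P))
    (ho : Ori k (XP P) (em P).ori) : integ hc ho = intP P := by
  subst hk
  rfl

variable (μ : Mor P' P) {A : AnP P n} {B : AnP P' m} {k : B.A.ι} {i : A.A.ι} {y : Pts P'}

/-- chain rule -/
theorem dv_map (hk : y ∈ (B.A.e k).source) (hi : μ.map y ∈ (A.A.e i).source) (w : R275.Geo.Cn m) {f : F}
    (hf : f ∈ (lp (μ.map y)).O) : B.dv k y w (μ.p.π f)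
      = A.dv i (μ.map y) (fderiv ℂ (rd B.A A.A μ.map k i) (B.A.e k y) w) f := by
  have h0 := mem_dm (p := μ.map) hk hi
  have h1 : rd B.A A.A μ.map k i (B.A.e k y) = A.A.e i (μ.map y) := by
    rw [rd, (B.A.e k).left_inv hk]
  have h2 : B.rd k (ev (μ.p.π f)) =ᶠ[𝓝 (B.A.e k y)] A.rd i (ev f) ∘ rd B.A A.A μ.map k i := by
    filter_upwards [AnP.eventually_rd hk (μ.continuous.continuousAt.eventually (eventually_mem hf)),
      ((μ.holMap B A).isOpen_dm k i).mem_nhds h0] with u hu hu'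
    change _ = ev f ((A.A.e i).symm (A.A.e i _))
    rw [(A.A.e i).left_inv hu'.2]
    exact (μ.ev_map hu.2.2).symm
  rw [AnP.dv, AnP.dv, h2.fderiv_eq, fderiv_comp _ (h1 ▸ AnP.diffAt hi hf)
    ((μ.holMap B A).diffAt h0), h1]
  rfl

theorem inj_rd (hs : ∀ g ∈ (lp y).O, ∃ f ∈ (lp (μ.map y)).O, μ.p.π f = g)
    (hk : y ∈ (B.A.e k).source) (hi : μ.map y ∈ (A.A.e i).source) :
    Function.Injective (fderiv ℂ (rd B.A A.A μ.map k i) (B.A.e k y)) := by
  refine (injective_iff_map_eq_zero _).2 fun w hw => ?_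
  ext l
  obtain ⟨f, hf, h1⟩ := hs _ (AnP.z_mem hk l)
  rw [← AnP.dv_z hk, ← h1, dv_map μ hk hi w hf, hw, AnP.dv, map_zero]
  rfl

/-- a generator of the kernel has nonzero differential -/
theorem dv_ne (hmn : m < n) (hs : ∀ g ∈ (lp y).O, ∃ f ∈ (lp (μ.map y)).O, μ.p.π f = g)
    (hi : μ.map y ∈ (A.A.e i).source) {t : F} (ht : t ∈ (lp (μ.map y)).O) (h0 : μ.p.π t = 0)
    (ht0 : t ≠ 0) (hker : ∀ f ∈ (lp (μ.map y)).O, μ.p.π f = 0 → f / t ∈ (lp (μ.map y)).O)
    (B : AnP P' m) : fderiv ℂ (A.rd i (ev t)) (A.A.e i (μ.map y)) ≠ 0 := by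
  intro hd
  obtain ⟨k, hk⟩ := B.A.cover y
  choose! L hL hπ using hs
  have key : ∀ w : R275.Geo.Cn n, fderiv ℂ (rd B.A A.A μ.map k i) (B.A.e k y)
      (WithLp.toLp 2 fun l => A.dv i (μ.map y) w (L (B.z k l))) = w := fun w => by
    ext r
    have hf := AnP.z_mem hi r
    obtain ⟨c, hc, h1⟩ := (B.crd k y hk).gen _ (μ.π_mem hf)
    have h2 : ∀ l, L (B.z k l) - algebraMap ℂ F (ev (B.z k l) y) ∈ (lp (μ.map y)).O := fun l =>
      sub_mem (hL _ (AnP.z_mem hk l)) (algebraMap_mem _ _)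
    have h3 : ∀ l ∈ Finset.univ, L (c l) * (L (B.z k l) - algebraMap ℂ F (ev (B.z k l) y))
        ∈ (lp (μ.map y)).O := fun l _ => mul_mem (hL _ (hc l)) (h2 l)
    set g := ∑ l, L (c l) * (L (B.z k l) - algebraMap ℂ F (ev (B.z k l) y)) with hg
    have h4 : g ∈ (lp (μ.map y)).O := sum_mem h3
    have h5 : ∀ l, μ.p.π (L (B.z k l) - algebraMap ℂ F (ev (B.z k l) y))
        = B.z k l - algebraMap ℂ K (ev (B.z k l) y) := fun l => by
      rw [Plc.π_sub (μ.mem_O (hL _ (AnP.z_mem hk l))) (algebraMap_mem _ _), hπ _ (AnP.z_mem hk l),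
        μ.p.π_alg]
    have h6 : μ.p.π g = ∑ l, c l * (B.z k l - algebraMap ℂ K (ev (B.z k l) y)) := by
      have := map_sum μ.p.hom (fun l => ⟨_, μ.mem_O (h3 l (Finset.mem_univ l))⟩) Finset.univ
      rw [Plc.hom_apply, AddSubmonoidClass.coe_finsetSum] at this
      refine this.trans (Finset.sum_congr rfl fun l _ => ?_)
      rw [Plc.hom_apply, μ.p.π_mul (μ.mem_O (hL _ (hc l))) (μ.mem_O (h2 l)), hπ _ (hc l), h5]
    have h7 : A.z i r - g - algebraMap ℂ F (ev (μ.p.π (A.z i r)) y) ∈ (lp (μ.map y)).O :=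
      sub_mem (sub_mem hf h4) (algebraMap_mem _ _)
    have h8 := hker _ h7 (by
      rw [Plc.π_sub (μ.mem_O (sub_mem hf h4)) (algebraMap_mem _ _), Plc.π_sub (μ.mem_O hf)
        (μ.mem_O h4), h6, μ.p.π_alg, sub_sub, add_comm, ← h1, sub_self])
    have h9 := AnP.dv_mul hi w ht h8
    rw [mul_div_cancel₀ _ ht0, μ.ev_map ht, h0, show ev (0 : K) y = 0 from LP.v_zero _,
      zero_mul, zero_add,
      show A.dv i (μ.map y) w t = 0 by rw [AnP.dv, hd]; rfl, mul_zero,
      AnP.dv_sub_alg hi w (sub_mem hf h4)] at h9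
    have h10 := AnP.dv_add hi w (sub_mem hf h4) h4
    rw [sub_add_cancel, h9, zero_add, AnP.dv_z hi, hg, AnP.dv_sum hi w _ h3] at h10
    rw [← AnP.dv_z hi, ← dv_map μ hk hi _ hf, AnP.dv_eq hk _ hc h1, h10]
    refine Finset.sum_congr rfl fun l _ => ?_
    rw [AnP.dv_mul hi w (hL _ (hc l)) (h2 l), μ.ev_map (h2 l), h5, μ.ev_map (hL _ (hc l)),
      hπ _ (hc l), AnP.dv_sub_alg hi w (hL _ (AnP.z_mem hk l)),
      show ev (B.z k l - algebraMap ℂ K (ev (B.z k l) y)) y = 0 from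
        LP.v_sub_v (AnP.z_mem hk l), zero_mul, add_zero]
  have h := LinearMap.finrank_le_finrank_of_surjective
    (f := (fderiv ℂ (rd B.A A.A μ.map k i) (B.A.e k y) :
      R275.Geo.Cn m →ₗ[ℂ] R275.Geo.Cn n)) fun w => ⟨_, key w⟩
  simp only [finrank_euclideanSpace_fin] at h
  omega

end Loc

variable {D X : SV} {j : Hom D X} {a : BD ℂ X.F}

theorem dv_on (h : IsDv j a) : a ∈ X.On := fun x => by
  by_cases hx : x ∈ range j.map
  · obtain ⟨y, rfl⟩ := hx
    exact (h.eqn y).elim fun t ht => ⟨_, ht.2.1⟩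
  · exact ⟨1, h.off x hx⟩

theorem dv_nonneg (h : IsDv j a) : 0 ≤ a := le_of_at (P := X.P) fun x => by
  by_cases hx : x ∈ range j.map
  · obtain ⟨y, rfl⟩ := hx
    obtain ⟨t, h1, h2, -⟩ := h.eqn y
    exact ⟨1, _, at_zero _, h2, by simpa using h1⟩
  · exact ⟨1, 1, at_zero _, h.off x hx, by simp⟩

theorem dv_ker (h : IsDv j a) {y : D.Pt} {t : X.F} (ht : At a (j.map y) t⁻¹) {f : X.F}
    (hf : f ∈ (lp (j.map y)).O) : j.p.π f = 0 ↔ f / t ∈ (lp (j.map y)).O := by
  obtain ⟨s, -, h2, h3⟩ := h.eqn y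
  have key : ∀ {s t : X.F}, At a (j.map y) s⁻¹ → At a (j.map y) t⁻¹ →
      f / s ∈ (lp (j.map y)).O → f / t ∈ (lp (j.map y)).O := fun {s t} hs ht h => by
    have h1 := mul_mem h (LP.mem_of_ne (ht.ev_div_ne hs))
    rwa [div_eq_mul_inv f, mul_assoc, mul_div_cancel₀ _ hs.ne, ← div_eq_mul_inv] at h1
  exact (h3 f hf).trans ⟨key h2 ht, key ht h2⟩

theorem dv_π (h : IsDv j a) {y : D.Pt} {t : X.F} (ht : At a (j.map y) t⁻¹) : j.p.π t = 0 :=
  (dv_ker h ht (mem_of_at (dv_nonneg h) ht)).2 (by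
    rw [div_self (inv_eq_zero.not.1 ht.ne)]; exact one_mem _)

theorem dv_zero_iff (h : IsDv j a) {x : X.Pt} {t : X.F} (ht : At a x t⁻¹) :
    ev t x = 0 ↔ x ∈ range j.map := by
  constructor
  · intro h0
    by_contra hx
    exact (h.off x hx).ev_div_ne ht (by rwa [one_div, _root_.inv_inv])
  · rintro ⟨y, rfl⟩
    rw [j.ev_map (mem_of_at (dv_nonneg h) ht), dv_π h ht]
    exact LP.v_zero _

theorem dvP (h : IsEmb j) {m : ℕ} (hm : D.dim = m) :
    Dv (2 * m) (XP X.P) (XP D.P) (em D.P).ori (ambM j) := by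
  subst hm
  exact dv_of_hol (em X.P) (em D.P) (j.holMap _ _) (ambM_j j)
    (fun _ => (contDiff_ambM j).contDiffAt) (oriP D.P) h.1
    fun y _ _ hk hi => inj_rd j (h.2 y) hk hi

theorem lEqP (h : IsDv j a) {m : ℕ} (hm : D.dim = m) {x : X.Pt} {t : X.F} (ht : At a x t⁻¹) :
    LEq (2 * m) (XP X.P) (em X.P).ori (XP D.P) (em D.P).ori (ambM j) (fa X.P t) (jP X.P x) := by
  subst hm
  obtain ⟨A⟩ : Nonempty (AnP X.P (D.dim + 1)) := h.dim_eq ▸ nonempty_an X.P
  have h0 := dv_nonneg h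
  refine lEq_of_hol (em D.P) (emb A) (j.holMap _ A) (ambM_j j)
    (fun _ => (contDiff_ambM j).differentiable (by simp) _) (cori_an A).pos (em D.P).cori.pos
    (fun y _ _ hk hi => inj_rd j (h.emb.2 y) hk hi)
    (ht.eventually.mono fun y hy => ⟨fa_sm (mem_of_at h0 hy), ?_⟩) ?_
  · rw [emb_j, fa_j (mem_of_at h0 hy), dv_zero_iff h hy]
  · rintro ⟨y, rfl⟩
    obtain ⟨i, hi⟩ := A.A.cover (j.map y)
    have h1 := mem_of_at h0 ht
    have h2 : (fun w => fa X.P t ((emb A).par i w)) =ᶠ[𝓝 (A.A.e i (j.map y))] A.rd i (ev t) :=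
      (AnP.eventually_rd hi (eventually_mem h1)).mono fun w hw => fa_j hw.2.2
    refine ⟨i, hi, (AnP.diffAt hi h1).congr_of_eventuallyEq h2, ?_⟩
    rw [h2.fderiv_eq]
    exact dv_ne j (Nat.lt_succ_self _) (h.emb.2 y) hi h1 (dv_π h ht) (inv_eq_zero.not.1 ht.ne)
      (fun f hf => (dv_ker h ht hf).1) (an D.P)

theorem clo_succ {m : ℕ} (hm : m + 1 = X.dim) : Clo (2 * m + 2) (XP X.P) := by
  have h := cloP X.P
  rwa [show dim ℂ X.F = m + 1 from hm.symm] at h

theorem ori_succ {m : ℕ} (hm : m + 1 = X.dim) : Ori (2 * m + 2) (XP X.P) (em X.P).ori := by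
  have h : ∀ k, k = 2 * dim ℂ X.F → Ori k (XP X.P) (em X.P).ori := fun k hk => hk ▸ oriP X.P
  exact h _ (by rw [show dim ℂ X.F = m + 1 from hm.symm]; ring)

/-- a smooth divisor with a singular connection form -/
theorem exists_th (h : IsDv j a) : ∃ θ c, Hom 1 θ ∧ Hom 2 c ∧
    (∀ (x : X.Pt) (t : X.F), At a x t⁻¹ → Sg (XP X.P) θ c (fa X.P t) (jP X.P x)) ∧
    ∃ hT : Th (2 * D.dim) (XP X.P) (em X.P).ori (XP D.P) (em D.P).ori (ambM j) θ c,
      hT.cH = c1 X a := by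
  obtain ⟨c, hc⟩ := exists_crv (dv_on h)
  obtain ⟨θ, h1, h2, h3⟩ := hc.exists_sg (dv_nonneg h)
  refine ⟨θ, c, h1, hc.deg, h3, ⟨clo_succ h.dim_eq, ori_succ h.dim_eq, dvP h.emb rfl, hc.ec.sm,
    hc.ec.inv, ?_, fun q => inv_of_one (h1 q), ?_⟩, hc.c1_eq.symm⟩
  · rintro _ ⟨x, rfl⟩ hx
    exact h2 x (h.off x fun hx' => hx ((image_amb (em X.P) (em D.P) (ambM_j j)).2 hx'))
  · rintro _ ⟨x, rfl⟩
    obtain ⟨g, hg⟩ := dv_on h x
    rw [← _root_.inv_inv g] at hg
    exact ⟨_, lEqP h rfl hg, h3 x _ hg⟩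

/-- **Poincaré-Lelong**, integrated form -/
theorem pl0I (h : IsDv j a) (y : HP X.P) : intP D.P (pullH j y) = intP X.P (c1 X a * y) := by
  obtain ⟨θ, c, -, -, -, hT, h1⟩ := exists_th h
  have h2 := hT.pl0 y
  rw [h1, integ_eq_intP (by rw [← show D.dim + 1 = dim ℂ X.F from h.dim_eq]; ring),
    integ_eq_intP rfl] at h2
  exact h2.symm

variable {typ : ∀ X : SV, ℕ → ℕ → Submodule ℂ (HP X.P)} {Lam : ∀ X : SV, AddSubgroup (HP X.P)}

theorem gys_eq_push (hP : (thOf typ c1 Lam).PD) (h : IsDv j a) {θ c : Hm X.P.N → Ext (Hm X.P.N)}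
    (hT : Th (2 * D.dim) (XP X.P) (em X.P).ori (XP D.P) (em D.P).ori (ambM j) θ c) (x : HP D.P) :
    hT.gys x = (thOf typ c1 Lam).push j x := hP.eq_push fun y => by
  have h2 := hT.gys_adj x y
  rwa [integ_eq_intP (by rw [← show D.dim + 1 = dim ℂ X.F from h.dim_eq]; ring),
    integ_eq_intP rfl] at h2

theorem pl0 (hP : (thOf typ c1 Lam).PD) : (thOf typ c1 Lam).PL0 := fun _ _ h =>
  (hP.eq_push fun y => (pl0I h y).symm.trans (by rw [one_mul])).symm

theorem bc2 (hP : (thOf typ c1 Lam).PD) : (thOf typ c1 Lam).BC2 := fun _ _ h x => by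
  obtain ⟨θ, c, -, -, -, hT, h1⟩ := exists_th h
  have h2 := hT.gys_self x
  rwa [gys_eq_push hP h hT, h1] at h2

theorem bc1 (hP : (thOf typ c1 Lam).PD) : (thOf typ c1 Lam).BC1 := by
  intro D X B j a u ι _ G v e m w h hv hu hc x
  obtain ⟨θ, c, h1, h2, h3, hT, -⟩ := exists_th h
  rw [← gys_eq_push hP h hT]
  rcases Nat.eq_zero_or_eq_succ_pred B.dim with hB | hB
  · have : IsEmpty ι := ⟨fun i => by have := (hv i).dim_eq; omega⟩
    obtain ⟨z, hz, -, h4⟩ := hT.gys_rep x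
    rw [Finset.univ_eq_empty, Finset.sum_empty, h4]
    refine (H.map_cls _ _).trans ((cls_congr (h' := (Z _).zero_mem) fun q hq => ?_).trans
      (map_zero (H.mk _)))
    have h5 : Hom 2 (hT.tube.τ θ c) := h2.add (Hom.d fun q => (h1 q).smul _)
    have h6 : res (XP B.P) q (pull (ambM u) (hT.tube.τ θ c) q) = 0 :=
      ((h5.pull q).pb _).eq_zero (by
        rw [(cloP B.P).finrank_Tan hq, show dim ℂ B.F = 0 from hB]; norm_num)
    rw [show hT.tube.gys θ c z = fun q => Cx.ofR (hT.tube.τ θ c q) * hT.tube.ext z q from rfl,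
      pullC_mul, pullC_ofR, map_mul, Pi.zero_apply, map_zero,
      show rs (XP B.P) q (Cx.ofR (pull (ambM u) (hT.tube.τ θ c) q)) = 0 from
        Cx.ext h6 (map_zero _), zero_mul]
  obtain ⟨k, hk⟩ : ∃ k, k + 1 = B.dim := ⟨_, hB.symm⟩
  have hG : ∀ i, (G i).dim = k := fun i => by have := (hv i).dim_eq; omega
  refine hP.ext fun b => ?_
  have h4 := hT.gys_bc (F' := fun i => Hm (G i).P.N) (clo_succ hk) (ori_succ hk) (smapM u)
    (fun i => dvP (hv i).emb (hG i)) (PLd.of_sg (k := m) ?_) (fun i => smapM (w i)) ?_ x b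
  · rw [integ_eq_intP (by rw [← show k + 1 = dim ℂ B.F from hk]; ring)] at h4
    refine h4.trans ?_
    rw [Finset.sum_mul, map_sum]
    refine Finset.sum_congr rfl fun i _ => ?_
    rw [integ_eq_intP (by rw [← hG i]), smul_mul_assoc, map_nsmul, hP.push_spec, nsmul_eq_mul]
    rfl
  · rintro _ ⟨y, rfl⟩
    obtain ⟨g, hg⟩ := dv_on h (u.map y)
    rw [← _root_.inv_inv g] at hg
    choose s hs using fun i => dv_on (hv i) y
    replace hs : ∀ i, At (e i) y (s i)⁻¹⁻¹ := fun i => by rw [_root_.inv_inv]; exact hs i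
    refine ⟨fun i => fa B.P (s i)⁻¹, fun i => lEqP (hv i) (hG i) (hs i), Sg.unit
      (ε := fa B.P ((∏ i, (s i)⁻¹⁻¹ ^ m i) / u.p.π (g⁻¹⁻¹ / 1)))
      (Sg.pull (smapM u) (jP_mem y) (by rw [ambM_j]; exact h3 _ _ hg)) (ev_XP.2 ?_)⟩
    filter_upwards [eventually_all.2 fun i => (hs i).eventually,
      u.continuous.continuousAt.eventually hg.eventually] with z k1 k2
    have k3 := fun i => mem_of_at (dv_nonneg (hv i)) (k1 i)
    have k4 := (at_sum Finset.univ fun i _ => (k1 i).nsmul (m i)).ev_div_ne (hu z _ k2)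
    have k5 := LP.mem_of_ne k4
    have k6 := mem_of_at (dv_nonneg h) k2
    have k7 := (hu z _ k2).ne
    refine ⟨contDiffAt_prod fun i _ => (fa_sm (k3 i)).pow _, fa_sm k5, by rwa [fa_j k5], ?_⟩
    simp only [fa_j (k3 _)]
    rw [ambM_j, fa_j k6, fa_j k5, u.ev_map k6,
      Finset.prod_congr rfl fun i _ => (LP.v_pow (k3 i) (m i)).symm,
      ← LP.v_prod _ fun i _ => pow_mem (k3 i) _, ev, ev,
      ← LP.v_mul _ k5 (prod_mem fun i _ => pow_mem (k3 i) _), div_mul_eq_mul_div,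
      ← Finset.prod_mul_distrib]
    rw [div_one, _root_.inv_inv] at k7
    rw [div_one, _root_.inv_inv g, Plc.π_inv k7, Finset.prod_eq_one fun i _ => by
      rw [← mul_pow, inv_mul_cancel₀ (inv_eq_zero.not.1 (k1 i).ne), one_pow], one_div]
  · rintro i _ ⟨y, rfl⟩
    rw [ambM_j, ambM_j, ambM_j, ambM_j, ← Mor.comp_map, ← Mor.comp_map, hc i]

end Crest.Agent.X262.PL
end
end

-- ▼ part X262/Coh/Num
section

/-!
# Row 262, COH (helper45): products of first Chern classes are intersection numbers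

* `plOf`, `lpb_rs`, `IsDv.eq_dv`, `IsDv.exists_res` : restriction to a smooth divisor;
* `Th.NumIn`, `Th.NumIn.c1_num` : the field `c1_num` of `MAN` from Poincaré-Lelong.
-/

set_option autoImplicit false

open WithZero

noncomputable section

namespace Crest.Agent.X262.Coh

open Crest.Agent.X277 Crest.Agent.X277.Lef Crest.Agent.X277.AN.G1 Crest.Agent.X277.BD
  Crest.Agent.X277.BD.Br
open Crest.Agent.X277.Link (IsPD)
open Crest.Agent.X262.Form88 (Val)

variable {X Y : SV}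

theorem bnum_pt (h : X.dim = 0) : bnum ([] : List (BD ℂ X.F)) = 1 := by
  obtain ⟨M⟩ := (inferInstance : Nonempty (Mdl ℂ X.F))
  have h1 : ∀ (n : ℕ) (V : R274.Defs_781.Var ℂ X.F n) (S : R274.Coh_413.Pol V M.On), n = 0 →
      AN.G2.num S (AN.G2.OX V) [] = Module.finrank ℂ X.F ∧ Module.Finite ℂ X.F := by
    rintro n V S rfl
    exact ⟨GF.cc_point S 0, GF.finite_point V S⟩
  obtain ⟨h2, h3⟩ := h1 _ M.X M.S h
  rw [bnum_eq' (M := M) (l := []) [] rfl h.symm, h2,
    ← (LinearEquiv.ofBijective (Algebra.linearMap ℂ X.F)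
      IsAlgClosed.algebraMap_bijective_of_isIntegral).finrank_eq, Module.finrank_self, Nat.cast_one]

section Res

variable {u : Hom X Y} {v : Valuation Y.F ℤᵐ⁰}

/-- the place of a morphism onto a prime divisor -/
def plOf (h : Val u v) (hv : IsPD Y.P v) : Pl ℂ Y.F ℂ X.F where
  V := rz v hv.triv
  φ :=
    { toFun := fun x => u.p.π x
      map_one' := u.p.π_one
      map_zero' := u.p.π_zero
      map_mul' := fun a b => u.p.π_mul ((h _).2 a.2) ((h _).2 b.2)
      map_add' := fun a b => u.p.π_add ((h _).2 a.2) ((h _).2 b.2) }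
  ker x := (h.π_eq_iff x.2).trans (by simpa using (v_rz_lt_iff v hv.triv (x := x.1) (y := 1)).symm)
  ov c := ⟨c, u.p.π_alg c⟩

theorem plOf_r (h : Val u v) (hv : IsPD Y.P v) (f : Y.F) : (plOf h hv).r f = u.p.π f := by
  by_cases hf : f ∈ (plOf h hv).V.1
  · exact Pl.r_eq _ hf
  · rw [Pl.r, dif_neg hf, u.p.π_off fun h1 => hf ((h f).1 h1)]

theorem lpb_rs (h : Val u v) (hv : IsPD Y.P v) (a : BD ℂ Y.F) :
    LPbU u a ((plOf h hv).rs a) (a.gen (plOf h hv).V) := fun x g hg W hW => by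
  rw [← plOf_r h hv]
  refine (Pl.val_res (Pl.val_sub_gen (a.v_gen _)) ((hg.sub (at_pr _ (a.gen_ne _))) _ ?_)).symm
  exact fun f hf => Pl.mem_cm.2 ⟨(h f).1 (u.mem_O hf), by
    rw [plOf_r]; exact hW _ (u.π_mem hf)⟩

theorem LPb.mem_On {a : BD ℂ Y.F} {a' : BD ℂ X.F} (h : LPb u a a') (ha : a ∈ Y.On) : a' ∈ X.On :=
  fun x => h.elim fun _ h => (ha (u.map x)).elim fun g hg => ⟨_, h x g hg⟩

theorem IsDv.eq_dv {a : BD ℂ Y.F} (h : IsDv u a) (hv : IsPD Y.P v) (hu : Val u v) :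
    a = Geo.dv Y.P (rz v hv.triv) := by
  refine ext_at (P := Y.P) fun y => ?_
  by_cases hy : y ∈ Set.range u.map
  · obtain ⟨x, rfl⟩ := hy
    obtain ⟨t, h1, h2, h3⟩ := h.eqn x
    have h0 : t ≠ 0 := fun h0 => h2.ne (by rw [h0, inv_zero])
    obtain ⟨s, hs⟩ := hv.exists_eqn (hu.on x)
    refine ⟨_, h2, Geo.at_dv (Geo.prm_of_isPD hv) ?_⟩
    rw [Geo.nv_rz hv.triv hv.nrm]
    have h4 : ∀ f ∈ (lp (u.map x)).O, v f < 1 ↔ f / t ∈ (lp (u.map x)).O := fun f hf =>
      (hu.π_eq_iff (hu.on x f hf)).symm.trans (h3 f hf)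
    refine ⟨h1, hs.val ▸ le_antisymm ?_ ?_, hs.loc, fun f hf => (h4 f hf).1⟩
    · exact (Link.v_div_le hs.ne).1 (hu.on x _ (hs.div t h1 ((h4 t h1).2 (by
        rw [div_self h0]; exact one_mem _))))
    · exact (Link.v_div_le h0).1 (hu.on x _ ((h4 s hs.mem).1 hs.lt))
  · exact ⟨1, h.off y hy, Geo.at_dv_off fun h1 => hy (hu.mem_range.2 fun f hf => h1 f hf)⟩

/-- **restriction to a smooth divisor** -/
theorem IsDv.exists_res {a : BD ℂ Y.F} (h : IsDv u a) : ∃ r : BD ℂ Y.F → BD ℂ X.F,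
    (∀ b, LPb u b (r b)) ∧ ∀ l, (∀ b ∈ l, b ∈ Y.On) → bnum (a :: l) = bnum (l.map r) := by
  obtain ⟨v, hv, hu⟩ := h.val
  refine ⟨(plOf hu hv).rs, fun b => ⟨_, lpb_rs hu hv b⟩, fun l hl => ?_⟩
  rw [h.eq_dv hv hu, Geo.bnum_dv (Geo.prm_of_isPD hv) hl]
  exact Geo.dg_eq_pl (p := plOf hu hv) (Geo.prm_of_isPD hv).dvs
    (fun c => (plOf_r hu hv _).trans (u.p.π_alg c))
    (fun g => (h.emb.birIm.surj g).elim fun f hf => ⟨⟨f, (hu f).1 hf.1⟩, hf.2⟩) l

end Res

namespace Th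

/-- the input of `c1_num` -/
structure NumIn (C : Th) : Prop where
  c1_add : ∀ X, ∀ a ∈ X.On, ∀ b ∈ X.On, C.c1 X (a + b) = C.c1 X a + C.c1 X b
  c1_pb : ∀ {X Y : SV} (μ : Hom X Y), ∀ a ∈ Y.On, ∀ a', LPb μ a a' →
    C.pb μ (C.c1 Y a) = C.c1 X a'
  pl : ∀ {D X : SV} (j : Hom D X) (a : BD ℂ X.F), IsDv j a →
    ∀ y, C.itg D (C.pb j y) = C.itg X (C.c1 X a * y)
  bim : ∀ {X Y : SV} (μ : Hom X Y), Bim μ → ∀ y, C.itg X (C.pb μ y) = C.itg Y y
  pt : ∀ X : SV, X.dim = 0 → C.itg X 1 = 1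
  pos : ∀ X : SV, X.dim ≠ 0 → C.itg X 1 = 0

variable {C : Th}

theorem NumIn.pb_prod (h : C.NumIn) (μ : Hom X Y) {r : BD ℂ Y.F → BD ℂ X.F}
    {l : List (BD ℂ Y.F)} (hl : ∀ a ∈ l, a ∈ Y.On) (hr : ∀ a ∈ l, LPb μ a (r a)) :
    C.pb μ (l.map (C.c1 Y)).prod = ((l.map r).map (C.c1 X)).prod := by
  rw [map_list_prod, List.map_map, List.map_map]
  exact congrArg _ (List.map_congr_left fun a ha => h.c1_pb μ a (hl a ha) _ (hr a ha))

/-- **products of first Chern classes are intersection numbers** -/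
theorem NumIn.c1_num (h : C.NumIn) (X : SV) (l : List (BD ℂ X.F)) (hl : ∀ a ∈ l, a ∈ X.On) :
    C.itg X (l.map (C.c1 X)).prod = (bnum l : ℤ) := by
  induction hn : l.length generalizing X with
  | zero =>
    obtain rfl := List.length_eq_zero_iff.1 hn
    by_cases h0 : X.dim = 0
    · rw [bnum_pt h0, Int.cast_one]
      exact h.pt X h0
    · rw [bnum_of_ne (Ne.symm h0), Int.cast_zero]
      exact h.pos X h0
  | succ n ih =>
    obtain ⟨a, l, rfl⟩ := List.exists_cons_of_length_eq_add_one hn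
    obtain ⟨M, π, h1, ι, _, G, v, e, h2, -, h3⟩ := Form88.exists_snc X {a}
    obtain ⟨-, m, h4, -⟩ := h3 a (Finset.mem_singleton_self a)
    have h5 : ∀ b, LPb π b (id b) := fun b => ⟨1, fun x g hg => by
      simpa [h1, pb_id] using hg.pb h1⟩
    have h6 : ∀ b ∈ l, b ∈ (sv M).On := fun b hb =>
      (h5 b).mem_On (hl b (List.mem_cons_of_mem _ hb))
    let φ : (sv M).On →+ C.H (sv M) :=
      AddMonoidHom.mk' (fun b => C.c1 (sv M) b) fun a b => h.c1_add _ _ a.2 _ b.2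
    have h7 : C.c1 (sv M) a = ∑ i, m i • C.c1 (sv M) (e i) := by
      have h8 := map_sum φ (fun i => m i • (⟨e i, (h2 i).on⟩ : (sv M).On)) Finset.univ
      simp only [map_zsmul] at h8
      refine Eq.trans (congrArg (C.c1 (sv M)) ?_) h8
      rw [h4, AddSubgroup.val_finsetSum]
      rfl
    rw [← h.bim π (Form88.bim_id h1), h.pb_prod π hl fun b _ => h5 b, List.map_id, List.map_cons,
      List.prod_cons, h7, Finset.sum_mul, map_sum]
    conv_rhs => rw [h4, bnum_sum, Int.cast_sum]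
    refine Finset.sum_congr rfl fun i _ => ?_
    obtain ⟨r, h8, h9⟩ := (h2 i).exists_res
    rw [smul_mul_assoc, map_zsmul, ← h.pl (v i) _ (h2 i), h.pb_prod (v i) h6 fun b _ => h8 b,
      ih (G i) (l.map r) (fun b hb => ?_) (by simpa using hn), bnum_zsmul, h9 l h6, zsmul_eq_mul,
      Int.cast_mul]
    obtain ⟨b, hb', rfl⟩ := List.mem_map.1 hb
    exact (h8 b).mem_On (h6 b hb')

end Th

end Crest.Agent.X262.Coh
end
end

-- ▼ part X262/PD/Hol
section

/-!
# Row 262, PD (helper97): products of embedded complex manifolds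

* `imm_of_slices` : slices through every point give the immersion property;
* `topC_mul_pos` : the product of complex orientations is the complex orientation;
* `isProd_emb` : `IsProd` for a holomorphic bijection `(p, q) : M → M₁ × M₂` with slices.
-/

set_option autoImplicit false
set_option linter.unusedSectionVars false

open MeasureTheory Set Filter Topology Module
open scoped ContDiff
open Crest.Agent.R208 Crest.Agent.R208.F Crest.Agent.R208.FI Crest.Agent.R208.T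
open Crest.Agent.R208.CW (SMap integ)
open Crest.Agent.R275.Geo (Cn Atl)
open Crest.Agent.R273.Map_835 (HolMap rd dm mem_dm)
open Crest.Agent.X262.Man

noncomputable section

namespace Crest.Agent.X262.PD

section real

variable {E : Type*} [NormedAddCommGroup E] [NormedSpace ℝ E] [FiniteDimensional ℝ E]
  {G : Type*} [NormedAddCommGroup G] [NormedSpace ℝ G] [FiniteDimensional ℝ G]
  {H : Type*} [NormedAddCommGroup H] [NormedSpace ℝ H] [FiniteDimensional ℝ H]
  {k m n : ℕ} {Z : Set H} {X : Set E} {Y : Set G} {p : H → E} {q : H → G}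

theorem fderiv_eq_on {f g : E → G} {x : E} (hf : DifferentiableAt ℝ f x)
    (hg : DifferentiableAt ℝ g x) (h : ∀ y ∈ X, f y = g y) {w : E} (hw : w ∈ Tan X x) :
    fderiv ℝ f x w = fderiv ℝ g x w := by
  refine Submodule.span_induction (p := fun w _ => fderiv ℝ f x w = fderiv ℝ g x w) ?_ ?_ ?_ ?_ hw
  · rintro w ⟨γ, rfl, hγ, hS⟩
    have h1 := hf.hasFDerivAt.comp_hasDerivAt 0 hγ
    have h2 := hg.hasFDerivAt.comp_hasDerivAt 0 hγ
    have h3 : (f ∘ γ) =ᶠ[𝓝 0] (g ∘ γ) := hS.mono fun t ht => h _ ht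
    exact (h1.congr_of_eventuallyEq h3.symm).unique h2
  · simp
  · intro a b _ _ ha hb; simp only [map_add, ha, hb]
  · intro r a _ ha; simp only [map_smul, ha]

theorem slice_fderiv {σ : E → H} {x : E} (hx : x ∈ X) (hσ : SMap X Z σ) (sq : SMap Z Y q)
    {g : E → G} (hg : DifferentiableAt ℝ g x) (h : ∀ u ∈ X, q (σ u) = g u) {w : E}
    (hw : w ∈ Tan X x) : fderiv ℝ q (σ x) (fderiv ℝ σ x w) = fderiv ℝ g x w := by
  rw [← fderiv_eq_on ((sq.comp hσ).diff hx) hg h hw]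
  exact (congrArg (fun L : E →L[ℝ] G => L w)
    (fderiv_comp x (sq.diff (hσ.maps hx)) (hσ.diff hx))).symm

theorem imm_of_slices (hk : k = m + n) (hZ : Sub k Z) (hX : Sub m X) (hY : Sub n Y)
    (sp : SMap Z X p) (sq : SMap Z Y q) {z : H} (hz : z ∈ Z) {σ : E → H} {τ : G → H}
    (hσ : SMap X Z σ) (hτ : SMap Y Z τ) (σ0 : σ (p z) = z) (τ0 : τ (q z) = z)
    (σ1 : ∀ u ∈ X, p (σ u) = u) (σ2 : ∀ u ∈ X, q (σ u) = q z) (τ1 : ∀ u ∈ Y, p (τ u) = p z)
    (τ2 : ∀ u ∈ Y, q (τ u) = u) {v : H} (hv : v ∈ Tan Z z) (h1 : fderiv ℝ p z v = 0)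
    (h2 : fderiv ℝ q z v = 0) : v = 0 := by
  let A : Tan Z z →ₗ[ℝ] Tan X (p z) :=
    (((fderiv ℝ p z : H →L[ℝ] E) : H →ₗ[ℝ] E) ∘ₗ (Tan Z z).subtype).codRestrict _
      fun v => fderiv_mapsTo_Tan (sp.diff hz) sp.maps v.2
  let B : Tan Z z →ₗ[ℝ] Tan Y (q z) :=
    (((fderiv ℝ q z : H →L[ℝ] G) : H →ₗ[ℝ] G) ∘ₗ (Tan Z z).subtype).codRestrict _
      fun v => fderiv_mapsTo_Tan (sq.diff hz) sq.maps v.2
  have hs : Function.Surjective (A.prod B) := by
    rintro ⟨a, b⟩
    have ha := fderiv_mapsTo_Tan (hσ.diff (sp.maps hz)) hσ.maps a.2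
    have hb := fderiv_mapsTo_Tan (hτ.diff (sq.maps hz)) hτ.maps b.2
    have a1 := slice_fderiv (sp.maps hz) hσ sp differentiableAt_id σ1 a.2
    have a2 := slice_fderiv (sp.maps hz) hσ sq (differentiableAt_const _) σ2 a.2
    have b1 := slice_fderiv (sq.maps hz) hτ sp (differentiableAt_const _) τ1 b.2
    have b2 := slice_fderiv (sq.maps hz) hτ sq differentiableAt_id τ2 b.2
    rw [σ0] at ha a1 a2
    rw [τ0] at hb b1 b2
    simp only [fderiv_id, fderiv_fun_const, ContinuousLinearMap.id_apply, Pi.zero_apply,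
      zero_apply] at a1 a2 b1 b2
    refine ⟨⟨_, ha⟩ + ⟨_, hb⟩, Prod.ext (Subtype.ext ?_) (Subtype.ext ?_)⟩
    · change fderiv ℝ p z (_ + _) = _
      rw [map_add, a1, b1, add_zero]
    · change fderiv ℝ q z (_ + _) = _
      rw [map_add, a2, b2, zero_add]
  have hi := (LinearMap.injective_iff_surjective_of_finrank_eq_finrank (f := A.prod B) (by
    rw [finrank_prod, hZ.finrank_Tan hz, hX.finrank_Tan (sp.maps hz),
      hY.finrank_Tan (sq.maps hz), hk])).2 hs
  have h0 : (⟨v, hv⟩ : Tan Z z) = 0 :=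
    (injective_iff_map_eq_zero _).1 hi _ (Prod.ext (Subtype.ext h1) (Subtype.ext h2))
  exact congrArg Subtype.val h0

theorem dpl_mul_pb (hE : finrank ℝ E = m) (hG : finrank ℝ G = n) (A : H →ₗ[ℝ] E) (B : H →ₗ[ℝ] G)
    (α : Ext E) (β : Ext G) :
    dpl (m + n) (pb A α * pb B β) = pb A (dpl m α) * pb B (dpl n β) := by
  have h := fun i j => isDeg_mul ((isDeg_dpl i α).pb A) ((isDeg_dpl j β).pb B)
  conv_lhs => rw [← sum_dpl α, ← sum_dpl β, hE, hG]
  rw [map_sum, map_sum, Finset.sum_mul, map_sum, Finset.sum_eq_single m, Finset.mul_sum, map_sum,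
    Finset.sum_eq_single n, dpl_of_isDeg (h m n)]
  · exact fun j _ hj => dpl_of_isDeg_ne (h m j) (by omega)
  · exact fun h => absurd (Finset.self_mem_range_succ n) h
  · intro i hi hi'
    rw [Finset.mul_sum, map_sum]
    refine Finset.sum_eq_zero fun j hj => dpl_of_isDeg_ne (h i j) ?_
    rw [Finset.mem_range] at hi hj
    omega
  · exact fun h => absurd (Finset.self_mem_range_succ m) h

end real

section lin

variable {n a b : ℕ}

/-- the standard real frame -/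
def fr (n : ℕ) (k : Fin (2 * n)) : Cn n := cL n (sb (2 * n) k)

theorem topC_eq (c : Ext (Cn n)) : topC n c = evA (Cn n) (2 * n) c (fr n) := by
  rw [topC_apply, top_pb]
  rfl

theorem fr_apply (k : Fin (2 * n)) (c : Fin n) : fr n k c =
    (if 2 * (c : ℕ) = k then 1 else 0) + (if 1 + 2 * (c : ℕ) = k then 1 else 0) * Complex.I := by
  simp [fr, cL_apply, Fin.ext_iff, ix_val, apply_ite Complex.ofReal]

theorem finrank_Cn (n : ℕ) : finrank ℝ (Cn n) = 2 * n := by
  rw [← (cL n).toLinearEquiv.finrank_eq, finrank_euclideanSpace_fin]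

/-- splitting of the coordinates -/
abbrev kC (a b : ℕ) : Cn (a + b) ≃L[ℂ] Cn a × Cn b := EuclideanSpace.finAddEquivProd

theorem kC_fr (k : Fin (2 * a + 2 * b)) : kC a b (fr (a + b) (Fin.cast (mul_add 2 a b).symm k)) =
    Fin.append (fun i => (fr a i, 0)) (fun j => (0, fr b j)) k := by
  refine Fin.addCases (fun i => ?_) (fun j => ?_) k
  · rw [Fin.append_left]
    have := i.2
    refine Prod.ext ?_ ?_ <;> ext c
    · change fr (a + b) _ (Fin.castAdd b c) = fr a i c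
      simp [fr_apply]
    · change fr (a + b) _ (Fin.natAdd a c) = 0
      rw [fr_apply, if_neg, if_neg, zero_mul, add_zero] <;> simp <;> omega
  · rw [Fin.append_right]
    refine Prod.ext ?_ ?_ <;> ext c
    · have := c.2
      change fr (a + b) _ (Fin.castAdd b c) = 0
      rw [fr_apply, if_neg, if_neg, zero_mul, add_zero] <;> simp <;> omega
    · change fr (a + b) _ (Fin.natAdd a c) = fr b j c
      rw [fr_apply, fr_apply]
      congr 1
      · exact if_congr (by simp; omega) rfl rfl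
      · congr 1
        exact if_congr (by simp; omega) rfl rfl

theorem topC_kC (α : Ext (Cn a)) (β : Ext (Cn b)) :
    topC (a + b) (pb (((kC a b : Cn (a + b) →L[ℂ] Cn a × Cn b) :
      Cn (a + b) →ₗ[ℂ] Cn a × Cn b).restrictScalars ℝ)
      (pb (LinearMap.fst ℝ (Cn a) (Cn b)) α * pb (LinearMap.snd ℝ (Cn a) (Cn b)) β)) =
      topC a α * topC b β := by
  rw [topC_eq, topC_eq, topC_eq, evA_pb, ← evA_cast (mul_add 2 a b).symm]
  have h1 : ((fun i => (((kC a b : Cn (a + b) →L[ℂ] Cn a × Cn b) :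
      Cn (a + b) →ₗ[ℂ] Cn a × Cn b).restrictScalars ℝ) (fr (a + b) i)) ∘
        Fin.cast (mul_add 2 a b).symm) =
      Fin.append (fun i => (fr a i, 0)) (fun j => (0, fr b j)) := funext kC_fr
  have h2 : ∀ {V : Type} [AddCommGroup V] [Module ℝ V] (q : ℕ) (c : Ext V),
      evA V q c = evA V q (dpl q c) := fun q c => by rw [evA_dpl, if_pos rfl]
  rw [h1, h2, dpl_mul_pb (finrank_Cn a) (finrank_Cn b),
    evA_mul_pb _ _ (fun q hq => isDeg_dpl _ β q hq.ne) _ _ _ (fun _ => rfl), evA_pb, ← h2, ← h2]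
  rfl

/-- the product of complex orientations -/
theorem topC_mul_pos (hn : n = a + b) (P : Cn n →ₗ[ℂ] Cn a) (Q : Cn n →ₗ[ℂ] Cn b)
    (h : ∀ v, P v = 0 → Q v = 0 → v = 0) {α : Ext (Cn a)} {β : Ext (Cn b)} (hα : 0 < topC a α)
    (hβ : 0 < topC b β) :
    0 < topC n (pb (P.restrictScalars ℝ) α * pb (Q.restrictScalars ℝ) β) := by
  subst hn
  let L : Cn (a + b) →ₗ[ℂ] Cn (a + b) := ((kC a b).symm : Cn a × Cn b →ₗ[ℂ] Cn (a + b)) ∘ₗ P.prod Q
  have hL : Function.Injective L := (kC a b).symm.injective.comp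
    ((injective_iff_map_eq_zero (P.prod Q)).2 fun v hv =>
      h v (congrArg Prod.fst hv) (congrArg Prod.snd hv))
  have hd : LinearMap.det L ≠ 0 := (LinearMap.isUnit_det L
    ((LinearMap.isUnit_iff_ker_eq_bot L).2 (LinearMap.ker_eq_bot.2 hL))).ne_zero
  have h1 := topC_pb_hol L (pb (((kC a b : Cn (a + b) →L[ℂ] Cn a × Cn b) :
    Cn (a + b) →ₗ[ℂ] Cn a × Cn b).restrictScalars ℝ)
      (pb (LinearMap.fst ℝ (Cn a) (Cn b)) α * pb (LinearMap.snd ℝ (Cn a) (Cn b)) β))
  rw [topC_kC, pb_comp, map_mul, pb_comp, pb_comp] at h1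
  have e : ∀ v, kC a b (L v) = (P v, Q v) := fun v => (kC a b).apply_symm_apply _
  have h2 := mul_pos (Complex.normSq_pos.2 hd) (mul_pos hα hβ)
  have e1 : LinearMap.fst ℝ (Cn a) (Cn b) ∘ₗ (((kC a b : Cn (a + b) →L[ℂ] Cn a × Cn b) :
      Cn (a + b) →ₗ[ℂ] Cn a × Cn b).restrictScalars ℝ) ∘ₗ L.restrictScalars ℝ =
      P.restrictScalars ℝ := LinearMap.ext fun v => congrArg Prod.fst (e v)
  have e2 : LinearMap.snd ℝ (Cn a) (Cn b) ∘ₗ (((kC a b : Cn (a + b) →L[ℂ] Cn a × Cn b) :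
      Cn (a + b) →ₗ[ℂ] Cn a × Cn b).restrictScalars ℝ) ∘ₗ L.restrictScalars ℝ =
      Q.restrictScalars ℝ := LinearMap.ext fun v => congrArg Prod.snd (e v)
  rwa [← h1, e1, e2] at h2

end lin

variable {n a b : ℕ} {M M₁ M₂ : Type} [TopologicalSpace M] [TopologicalSpace M₁]
  [TopologicalSpace M₂] [CompactSpace M] [CompactSpace M₁] [CompactSpace M₂]
  {A : Atl n M} {A₁ : Atl a M₁} {A₂ : Atl b M₂}
  {E : Type} [NormedAddCommGroup E] [NormedSpace ℝ E] [FiniteDimensional ℝ E]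
  {E₁ : Type} [NormedAddCommGroup E₁] [NormedSpace ℝ E₁] [FiniteDimensional ℝ E₁]
  {E₂ : Type} [NormedAddCommGroup E₂] [NormedSpace ℝ E₂] [FiniteDimensional ℝ E₂]

theorem fderiv_par_comp (ε : Emb A E) (ε₁ : Emb A₁ E₁) {p : M → M₁} (hp : HolMap A A₁ p)
    {g : E → E₁} (hg : ∀ y, g (ε.j y) = ε₁.j (p y)) (hd : ∀ y, DifferentiableAt ℝ g (ε.j y))
    {i : A.ι} {k : A₁.ι} {z : Cn n} (hz : z ∈ dm A A₁ p i k) {v : Cn n}
    (hv : fderiv ℂ (rd A A₁ p i k) z v = 0) :
    fderiv ℝ g (ε.par i z) (fderiv ℝ (ε.par i) z v) = 0 := by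
  have h1 := (ε.comp_par ε₁ hp hg hz).fderiv_eq (𝕜 := ℝ)
  have h2 := fderiv_comp z (hd ((A.e i).symm z)) (ε.diff_par hz.1)
  have h3 := fderiv_comp z (ε₁.diff_par ((A₁.e k).map_source hz.2))
    ((hp.diffAt hz).restrictScalars ℝ)
  have h4 := congrArg (fun L : Cn n →L[ℝ] E₁ => L v) (h2.symm.trans (h1.trans h3))
  refine h4.trans ?_
  change fderiv ℝ (ε₁.par k) _ (fderiv ℝ (rd A A₁ p i k) z v) = 0
  rw [(hp.diffAt hz).fderiv_restrictScalars ℝ, ContinuousLinearMap.coe_restrictScalars', hv,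
    map_zero]

/-- **products of complex manifolds** -/
theorem isProd_emb (hn : n = a + b) (ε : Emb A E) (ε₁ : Emb A₁ E₁) (ε₂ : Emb A₂ E₂) {p : M → M₁}
    {q : M → M₂} (hp : HolMap A A₁ p) (hq : HolMap A A₂ q)
    (hb : Function.Bijective fun x => (p x, q x))
    (hs : ∀ x, ∃ s, HolMap A₁ A s ∧ ∀ u, p (s u) = u ∧ q (s u) = q x)
    (ht : ∀ x, ∃ t, HolMap A₂ A t ∧ ∀ u, p (t u) = p x ∧ q (t u) = u)
    {f : E → E₁} {g : E → E₂} (sf : SMap ε.X ε₁.X f) (sg : SMap ε.X ε₂.X g)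
    (hf : ∀ y, f (ε.j y) = ε₁.j (p y)) (hg : ∀ y, g (ε.j y) = ε₂.j (q y)) :
    IsProd (2 * n) ε.X ε.ori (2 * a) ε₁.X ε₁.ori (2 * b) ε₂.X ε₂.ori f g := by
  have hk : 2 * n = 2 * a + 2 * b := by omega
  have imm : ∀ z ∈ ε.X, ∀ v ∈ Tan ε.X z, fderiv ℝ f z v = 0 → fderiv ℝ g z v = 0 → v = 0 := by
    refine ε.forall_X.2 fun x v hv h1 h2 => ?_
    obtain ⟨s, s1, s2⟩ := hs x
    obtain ⟨t, t1, t2⟩ := ht x
    have es := fun u => ε₁.amb_j (sm_comp_hol s1 ε.sm) u
    have et := fun u => ε₂.amb_j (sm_comp_hol t1 ε.sm) u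
    refine imm_of_slices hk ε.sub ε₁.sub ε₂.sub sf sg (ε.mem x) (ε₁.smap ε s1) (ε₂.smap ε t1)
      ?_ ?_ (ε₁.forall_X.2 fun u => ?_) (ε₁.forall_X.2 fun u => ?_) (ε₂.forall_X.2 fun u => ?_)
      (ε₂.forall_X.2 fun u => ?_) hv h1 h2
    · rw [hf, es, hb.1 (Prod.ext (s2 (p x)).1 (s2 (p x)).2)]
    · rw [hg, et, hb.1 (Prod.ext (t2 (q x)).1 (t2 (q x)).2)]
    · rw [es, hf, (s2 u).1]
    · rw [es, hg, hg, (s2 u).2]
    · rw [et, hf, hf, (t2 u).1]
    · rw [et, hg, (t2 u).2]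
  have hC : ε.COri (pull f ε₁.ori * pull g ε₂.ori) := by
    refine ⟨cont_of_sm (Sm.mul (Sm.pull sf fun _ _ => ε₁.contDiff_ori.contDiffAt)
      (Sm.pull sg fun _ _ => ε₂.contDiff_ori.contDiffAt)), fun i z hz => ?_⟩
    obtain ⟨k, hk⟩ := A₁.cover (p ((A.e i).symm z))
    obtain ⟨l, hl⟩ := A₂.cover (q ((A.e i).symm z))
    have z1 : z ∈ dm A A₁ p i k := ⟨hz, hk⟩
    have z2 : z ∈ dm A A₂ q i l := ⟨hz, hl⟩
    have d1 := fun y => sf.diff (ε.mem y)
    have d2 := fun y => sg.diff (ε.mem y)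
    rw [pull_mul', Pi.mul_apply, ε.pull_pull ε₁ hp hf d1 z1, ε.pull_pull ε₂ hq hg d2 z2]
    change 0 < topC n (pb _ _ * pb _ _)
    rw [(hp.diffAt z1).fderiv_restrictScalars ℝ, (hq.diffAt z2).fderiv_restrictScalars ℝ]
    refine topC_mul_pos hn (fderiv ℂ (rd A A₁ p i k) z : Cn n →L[ℂ] Cn a)
      (fderiv ℂ (rd A A₂ q i l) z : Cn n →L[ℂ] Cn b) (fun v h1 h2 => ?_)
      (ε₁.cori.pos k _ ((A₁.e k).map_source hk)) (ε₂.cori.pos l _ ((A₂.e l).map_source hl))
    refine (injective_iff_map_eq_zero _).1 (ε.imm i z hz) v (imm _ (ε.par_mem i z) _ ?_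
      (fderiv_par_comp ε ε₁ hp hf d1 z1 h1) (fderiv_par_comp ε ε₂ hq hg d2 z2 h2))
    rw [ε.tan_eq hz]
    exact ⟨v, rfl⟩
  refine ⟨hk, ε.clo, ε₁.clo, ε₂.clo, ε.isOri, ε₁.isOri, ε₂.isOri, sf, sg,
    ⟨fun z hz => ⟨sf.maps hz, sg.maps hz⟩, ?_, ?_⟩, imm, fun _ => ε.cori.J_congr hC⟩
  · rintro _ ⟨x, rfl⟩ _ ⟨y, rfl⟩ h
    simp only [hf, hg, Prod.mk.injEq] at h
    rw [hb.1 (Prod.ext (ε₁.inj h.1) (ε₂.inj h.2))]
  · rintro ⟨_, _⟩ ⟨⟨u, rfl⟩, ⟨v, rfl⟩⟩
    obtain ⟨x, hx⟩ := hb.2 (u, v)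
    refine ⟨ε.j x, ε.mem x, ?_⟩
    simp only [hf, hg, (Prod.mk.inj hx).1, (Prod.mk.inj hx).2]

end Crest.Agent.X262.PD
end
end

-- ▼ part X262/PD/Th
section

/-!
# Row 262, PD (helper97): `PD`, `FUB`, `DIAG`, `KUN` for the de Rham theory

* `Hz X j` (closed forms of degree `j` are exact), `Hodd X`; `Hz.dual`, `hodd_of`;
* `isProdP`, `th_pd`, `th_fub`, `th_diag`, `span_left`, `span_right`, `th_kun`.
-/

set_option autoImplicit false
set_option linter.unusedSectionVars false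
set_option linter.style.haveILetI false

open Set Module
open Crest.Agent.R208 Crest.Agent.R208.F Crest.Agent.R208.FI Crest.Agent.R208.T
open Crest.Agent.R208.CW (SMap integ)
open Crest.Agent.X277 Crest.Agent.X277.Lef Crest.Agent.X277.AN.G1 Crest.Agent.X277.BD
open Crest.Agent.X262.Man

noncomputable section

namespace Crest.Agent.X262.PD

section odd

variable {E : Type} [NormedAddCommGroup E] [NormedSpace ℝ E] [FiniteDimensional ℝ E]
  {n : ℕ} {X : Set E} {o : E → Ext E}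

/-- closed forms of degree `j` are exact -/
def Hz (X : Set E) (j : ℕ) : Prop := ∀ u, Sm X u → Cl X u → Hom j u → Coh X u 0

/-- closed odd forms are exact -/
def Hodd (X : Set E) : Prop := ∀ u, OC X u → Coh X u 0

theorem Hz.dual (hX : Clo n X) (ho : Ori n X o) {i j : ℕ} (hij : i + j = n) (h : Hz X i) :
    Hz X j := fun u su cu hu => by
  obtain ⟨N, deg, e, f, hb⟩ := exists_pdb hX ho
  refine (hb.span u su cu).trans (Coh.of_eqv ?_)
  rw [Finset.sum_eq_zero fun k _ => ?_]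
  · exact Eqv.refl _
  rw [← J_dp_mul hX ho (hb.sf k) su hu (by omega), show n - j = i by omega,
    J_mul_coh_left hX ho ((hb.sf k).dp i) Sm.zero
      (h _ ((hb.sf k).dp i) ((hb.cf k).dp i (hb.sf k)) (hom_dp _ _)) su cu, zero_mul, J_zero',
    zero_smul]

theorem hodd_of (hX : Sub n X) (h : ∀ j, Odd j → j ≤ n → Hz X j) : Hodd X := fun u hu => by
  refine (Coh.of_eqv (eqv_sum_dp hX u)).symm.trans ?_
  suffices h1 : Coh X (∑ j ∈ Finset.range (n + 1), dp j u) (∑ _j ∈ Finset.range (n + 1), 0) by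
    rwa [Finset.sum_const_zero] at h1
  refine coh_sum _ fun j hj => ?_
  rcases Nat.even_or_odd j with he | ho
  · have h1 : dp j u = 0 := funext fun x => by
      have h2 := dpl_inv j (u x)
      rw [hu.inv, he.neg_one_pow, one_smul, map_neg] at h2
      refine (smul_eq_zero_iff_right (two_ne_zero' ℝ)).1 ?_
      rw [two_smul]
      exact add_eq_zero_iff_neg_eq.2 h2
    rw [h1]
    exact Coh.refl _
  · exact h j ho (Nat.lt_succ_iff.1 (Finset.mem_range.1 hj)) _ (hu.sm.dp j) (hu.cl.dp j hu.sm)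
      (hom_dp _ _)

theorem Hodd.hz (h : Hodd X) {j : ℕ} (hj : Odd j) : Hz X j := fun u su cu hu =>
  h u ⟨fun x => inv_of_odd hj (hu x), su, cu⟩

/-- a four-manifold with `b₁ = 0` has no odd cohomology -/
theorem hodd_four (hX : Clo 4 X) (ho : Ori 4 X o) (h : Hz X 1) : Hodd X :=
  hodd_of hX.sub fun j hj h4 => by
    obtain rfl | rfl : j = 1 ∨ j = 3 := by obtain ⟨k, rfl⟩ := hj; omega
    exacts [h, h.dual hX ho rfl]

variable {G : Type} [NormedAddCommGroup G] [NormedSpace ℝ G] [FiniteDimensional ℝ G]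
  {H : Type} [NormedAddCommGroup H] [NormedSpace ℝ H] [FiniteDimensional ℝ H]
  {k m : ℕ} {Z : Set H} {Y : Set G} {oZ : H → Ext H} {oY : G → Ext G} {p : H → E} {q : H → G}

/-- **Kuenneth** if one factor has no odd cohomology -/
theorem IsProd.span (h : IsProd k Z oZ n X o m Y oY p q) (h0 : Hodd X ∨ Hodd Y) (z : CW.H Z) :
    z ∈ Submodule.span ℂ {z | ∃ a b, z = CW.H.map h.sp a * CW.H.map h.sq b} := by
  refine h.ind (P := fun z => z ∈ Submodule.span ℂ
    {z | ∃ a b, z = CW.H.map h.sp a * CW.H.map h.sq b}) (zero_mem _)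
    (fun a b => Submodule.subset_span (by exact ⟨a, b, rfl⟩))
    (fun u u' hu hu' => ?_)
    (fun _ _ => add_mem) (fun c _ => Submodule.smul_mem _ c) z
  rw [(rcl_eq_zero_iff _).2]
  · exact zero_mem _
  rcases h0 with h0 | h0
  · have h1 := ((h0 u hu).pull h.sp).mul_right (hu'.pull h.sq).sm (hu'.pull h.sq).cl
    rwa [pull_zero', zero_mul] at h1
  · have h1 := coh_mul_left (hu.pull h.sp).sm (hu.pull h.sp).cl ((h0 u' hu').pull h.sq)
    rwa [pull_zero', mul_zero] at h1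

end odd

section th

open Crest.Agent.X262.Coh

theorem dim_prod (X Y : SV) : (X.prod Y).dim = X.dim + Y.dim := by
  haveI := finite_kaehler X.P
  haveI := finite_kaehler Y.P
  exact (Cns.finrank_pf (R274.Prod1_134.isPF ℂ X.F Y.F)).2

/-- the product of two varieties is the product of the manifolds -/
theorem isProdP (X Y : SV) :
    IsProd (2 * (X.prod Y).dim) (XP (X.prod Y).P) (em (X.prod Y).P).ori (2 * X.dim) (XP X.P)
      (em X.P).ori (2 * Y.dim) (XP Y.P) (em Y.P).ori (ambM (fst X Y)) (ambM (snd X Y)) :=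
  isProd_emb (dim_prod X Y) (em (X.prod Y).P) (em X.P) (em Y.P)
    ((fst X Y).holMap (an _) (an _)) ((snd X Y).holMap (an _) (an _))
    (Cns.ptsEquiv X.P Y.P _).bijective
    (fun x => ⟨_, (Coh.pair (idH X) (Cns.cst X.P ((snd X Y).map x))).holMap (an _) (an _),
      fun u => by simp [Cns.pair_map]⟩)
    (fun x => ⟨_, (Coh.pair (Cns.cst Y.P ((fst X Y).map x)) (idH Y)).holMap (an _) (an _),
      fun u => by simp [Cns.pair_map]⟩)
    (smapM _) (smapM _) (ambM_j _) (ambM_j _)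

variable (typ : ∀ X : SV, ℕ → ℕ → Submodule ℂ (HP X.P)) (c1 : ∀ X : SV, BD ℂ X.F → HP X.P)
  (Lam : ∀ X : SV, AddSubgroup (HP X.P))

theorem th_pd : (thOf typ c1 Lam).PD := fun X =>
  ⟨finite_H (cloP X.P) (oriP X.P), fun _ h => nondeg_H (cloP X.P) (oriP X.P) (even_two_mul _) h⟩

theorem th_fub : (thOf typ c1 Lam).FUB := fun X Y a b => (isProdP X Y).integ_mul a b

theorem th_diag : (thOf typ c1 Lam).DIAG := fun {X X' Y} μ ν a b =>
  (isProdP Y Y).diag (isProdP X X') (even_two_mul _) (even_two_mul _) (smapM μ) (smapM ν)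
    (smapM (pmap μ ν))
    (by rintro _ ⟨x, rfl⟩; simp [ambM_j, Cns.pair_map, Mor.comp_map])
    (by rintro _ ⟨x, rfl⟩; simp [ambM_j, Cns.pair_map, Mor.comp_map])
    (smapM (dia Y))
    (by rintro _ ⟨x, rfl⟩; simp [ambM_j, Cns.pair_map])
    (by rintro _ ⟨x, rfl⟩; simp [ambM_j, Cns.pair_map])
    ((th_pd typ c1 Lam).push_spec μ a) ((th_pd typ c1 Lam).push_spec ν b)
    fun z => ((th_pd typ c1 Lam).push_spec (dia Y) 1 z).trans (by rw [one_mul]; rfl)

/-- **Kuenneth** if one factor has no odd cohomology -/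
theorem th_span {X Y : SV} (h : Hodd (XP X.P) ∨ Hodd (XP Y.P)) (z : HP (X.prod Y).P) :
    z ∈ Submodule.span ℂ {z | ∃ a b, z = pullH (fst X Y) a * pullH (snd X Y) b} :=
  (isProdP X Y).span h z

theorem th_kun (h : ∀ X : SV, X.dim = 2 → X.R1 = ⊥ → Hz (XP X.P) 1) : (thOf typ c1 Lam).KUN :=
  fun X _ h2 h1 z => th_span (Or.inl (hodd_four (o := (em X.P).ori) (by simpa [h2] using cloP X.P)
    (by simpa [h2] using oriP X.P) (h X h2 h1))) z

end th

end Crest.Agent.X262.PD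
end
end

-- ▼ part X262/PL/Man
section

/-!
# Row 262, PL (helper92), part Man: `MAN`, `PL0`, `BC1`, `BC2` for the de Rham theory
-/

set_option autoImplicit false

noncomputable section

namespace Crest.Agent.X262.PL

open Crest.Agent.R208.CW Crest.Agent.R208.T
open Crest.Agent.X262.Man Crest.Agent.X262.Coh

variable (typ : ∀ X : SV, ℕ → ℕ → Submodule ℂ (HP X.P)) (Lam : ∀ X : SV, AddSubgroup (HP X.P))

theorem numIn : (thOf typ c1 Lam).NumIn where
  c1_add := c1Ax.add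
  c1_pb := c1Ax.pb
  pl _ _ h y := pl0I h y
  bim _ h y := degB h y
  pt _ h := intP_one h
  pos _ h := intP_dg (k := 0) (Ne.symm h) one_mem_HD

theorem c1Num : C1Num c1 := (numIn (fun _ _ _ => ⊥) fun _ => ⊥).c1_num

theorem man_th : (thOf typ c1 Lam).MAN := man_of typ Lam c1Ax c1Num

theorem pl0_th : (thOf typ c1 Lam).PL0 := pl0 (PD.th_pd typ c1 Lam)

theorem bc1_th : (thOf typ c1 Lam).BC1 := bc1 (PD.th_pd typ c1 Lam)

theorem bc2_th : (thOf typ c1 Lam).BC2 := bc2 (PD.th_pd typ c1 Lam)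

end Crest.Agent.X262.PL
end
end

-- ▼ part X262/Man/Brg
section

/-!
# Row 262, MAN (helper16), part 8: the integral in terms of a partition of unity

* `Emb.Int_part`, `Emb.integ_toH` : `ε.integ (toH ε u) = IntF P (tpT n) u`;
* `intP_toH`, `intBr` : the same for `intP`.
-/

set_option autoImplicit false
set_option linter.unusedSectionVars false
set_option linter.style.haveILetI false

open Set Filter Topology Function Module MeasureTheory
open scoped ContDiff

noncomputable section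

namespace Crest.Agent.X262.Man

open Crest.Agent.R208.F Crest.Agent.R208.FI Crest.Agent.R208.CW Crest.Agent.R208.T
open Crest.Agent.R275.Geo (Cn RI rc cc Atl Part)
open Crest.Agent.R275.SerG398 (lint)
open Crest.Agent.R273.DnInt_505 (sum_psi_fin)
open Crest.Agent.X262.Kah (ZF toH toH_eq exists_Z IntF tpT res0 res0_apply dnF)

variable {n : ℕ} {M : Type} [TopologicalSpace M] {A : Atl n M}

/-- `cc` through `cL` -/
def ccE (n : ℕ) : (RI n → ℝ) ≃ᵐ Cn n :=
  ((MeasurableEquiv.piCongrLeft (fun _ : Fin (2 * n) => ℝ) (ix n)).trans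
    (MeasurableEquiv.toLp 2 _)).trans (cL n).toHomeomorph.toMeasurableEquiv

theorem ccE_apply (x : RI n → ℝ) : ccE n x = cc x := by
  ext a
  have h : ∀ p : RI n, MeasurableEquiv.piCongrLeft (fun _ : Fin (2 * n) => ℝ) (ix n) x (ix n p)
      = x p := fun p => MeasurableEquiv.piCongrLeft_apply_apply (β := fun _ => ℝ) (ix n) x p
  exact congrArg₂ (fun s t : ℝ => (s : ℂ) + (t : ℂ) * Complex.I) (h (a, 0)) (h (a, 1))

theorem measurePreserving_ccE : MeasurePreserving (ccE n) volume volume :=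
  measurePreserving_cL.comp ((PiLp.volume_preserving_toLp _).comp
    (volume_measurePreserving_piCongrLeft (fun _ : Fin (2 * n) => ℝ) (ix n)))

theorem lint_eq (j : A.ι) (f : M → ℂ) :
    lint A j f = ∫ z in (A.e j).target, f ((A.e j).symm z) := by
  rw [← integral_indicator (A.e j).open_target.measurableSet,
    ← measurePreserving_ccE.integral_comp']
  refine integral_congr_ae (Eventually.of_forall fun x => ?_)
  simp only [ccE_apply, R275.Geo.rd, indicator_apply]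
  congr

theorem psi_zero (P : Part A) {j : A.ι} {x : M} (hx : x ∉ (A.e j).source) : P.ψ j x = 0 :=
  image_eq_zero_of_notMem_tsupport fun h => hx (P.χ_sub j (subset_tsupport _ (by
    rw [mem_support, (P.χ_one j x h).self_of_nhds]; exact one_ne_zero)))

namespace Emb

variable {E : Type} [NormedAddCommGroup E] [NormedSpace ℝ E] [FiniteDimensional ℝ E]
  (ε : Emb A E) [CompactSpace M]

theorem int_psi [MeasurableSpace M] [BorelSpace M] (P : Part A) (j : A.ι) (om : E → Ext E) :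
    ∫ x, P.ψ j x * ε.den om x ∂ε.vol =
      ∫ z in (A.e j).target, P.ψ j ((A.e j).symm z) * topC n (pull (ε.par j) om z) := by
  rw [← (A.e j).image_source_eq_target,
    ← ε.setInt_chart (A.e j).open_source.measurableSet Subset.rfl,
    setIntegral_eq_integral_of_forall_compl_eq_zero fun x hx => by rw [psi_zero P hx, zero_mul]]

/-- the integral as a sum over a partition of unity -/
theorem Int_part [T2Space M] [Fintype A.ι] (P : Part A) {om : E → Ext E} (h : ContinuousOn om ε.X) :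
    ε.Int om = ∑ j, ∫ z in (A.e j).target,
      P.ψ j ((A.e j).symm z) * topC n (pull (ε.par j) om z) := by
  borelize M
  simp only [← ε.int_psi]
  rw [← integral_finset_sum (f := fun j x => P.ψ j x * ε.den om x) _ fun j _ =>
    ((continuous_of_sm (P.ψ_sm j)).mul (ε.continuous_den h)).integrable_of_hasCompactSupport
      (HasCompactSupport.of_compactSpace _), ε.Int_eq]
  refine integral_congr_ae (Eventually.of_forall fun x => ?_)
  simp only [← Finset.sum_mul]
  rw [sum_psi_fin, one_mul]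

theorem integrableOn_psi (P : Part A) (j : A.ι) {om : E → Ext E} (h : Sm ε.X om) :
    IntegrableOn (fun z => P.ψ j ((A.e j).symm z) * topC n (pull (ε.par j) om z))
      (A.e j).target := by
  have hK : IsCompact (A.e j '' tsupport (P.χ j)) :=
    (P.χ_cpt j).image_of_continuousOn ((A.e j).continuousOn.mono (P.χ_sub j))
  have hs : A.e j '' tsupport (P.χ j) ⊆ (A.e j).target := by
    rintro _ ⟨x, hx, rfl⟩
    exact (A.e j).map_source (P.χ_sub j hx)
  have hc : ContinuousOn (fun z => P.ψ j ((A.e j).symm z) * topC n (pull (ε.par j) om z))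
      (A.e j).target := (P.ψ_sm j j).continuousOn.mul (continuous_topC.comp_continuousOn
        fun z hz => (ε.contDiffAt_pull_par h hz).continuousAt.continuousWithinAt)
  refine ((hc.mono hs).integrableOn_compact hK).of_forall_diff_eq_zero
    (A.e j).open_target.measurableSet fun z hz => ?_
  have h0 : P.ψ j ((A.e j).symm z) = 0 := image_eq_zero_of_notMem_tsupport fun h1 =>
    hz.2 ⟨_, subset_tsupport _ (by
      rw [mem_support, (P.χ_one j _ h1).self_of_nhds]; exact one_ne_zero), (A.e j).right_inv hz.1⟩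
  rw [h0, zero_mul]

variable [T2Space M] [Finite A.ι]

theorem intF_res0 (P : Part A) {w : E → CF E} (h : Smo ε.X w) :
    IntF P (tpT n) (res0 ε w h) = ⟨ε.Int fun y => (w y).re, ε.Int fun y => (w y).im⟩ := by
  have := Fintype.ofFinite A.ι
  have h1 : Sm ε.X fun y => (w y).re := fun x hx => (h x hx).re
  have h2 : Sm ε.X fun y => (w y).im := fun x hx => (h x hx).im
  rw [Kah.IntF_apply, R273.DnInt_505.IntP_eq, 
    ε.Int_part P fun x hx => (h1 x hx).continuousAt.continuousWithinAt,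
    ε.Int_part P fun x hx => (h2 x hx).continuousAt.continuousWithinAt,
    Complex.mk_eq_add_mul_I, Complex.ofReal_sum, Complex.ofReal_sum, Finset.sum_mul,
    ← Finset.sum_add_distrib]
  refine Finset.sum_congr rfl fun j _ => ?_
  rw [lint_eq, ← integral_complex_ofReal, ← integral_complex_ofReal, ← integral_mul_const,
    ← integral_add (ε.integrableOn_psi P j h1).ofReal
      ((ε.integrableOn_psi P j h2).ofReal.mul_const _)]
  refine setIntegral_congr_fun (A.e j).open_target.measurableSet fun z hz => ?_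
  simp only [dnF, (A.e j).right_inv hz, res0_apply ε h hz, Kah.tpT_t]
  apply Complex.ext <;> simp <;> exact Or.inl rfl

/-- **the two integrals agree** -/
theorem integ_toH (P : Part A) (u : ZF A) : ε.integ (toH ε u) = IntF P (tpT n) u.1 := by
  obtain ⟨w, h, e⟩ := exists_Z ε u
  rw [toH_eq ε h e, ε.integ_cls, ← e, ε.intF_res0]

theorem integ_toH' (P : Part A) (u : ZF A) :
    ε.integ (toH ε u) = ((1 : ℝ) : ℂ) * IntF P (tpT n) u.1 := by
  rw [ε.integ_toH P, Complex.ofReal_one, one_mul]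

end Emb

open Crest.Agent.X277.Lef Crest.Agent.X277.AN.G1 in
/-- the integral on a projective model, in any atlas -/
theorem intP_toH {F : Type} [Field F] [Algebra ℂ F] {P : PModel ℂ F} (X : AnP P n)
    (Q : Part X.A) (u : ZF X.A) :
    intP P (toH (emb X) u) = ((1 : ℝ) : ℂ) * IntF Q (tpT n) u.1 := by
  exact (intP_eq X _).trans ((emb X).integ_toH' Q u)

theorem intBr : Kah.IntBr := fun X => ⟨1, one_pos, intP_toH (an X.P) _⟩

end Crest.Agent.X262.Man
end
end

-- ▼ part X262/Kah/ClsC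
section

/-!
# X262 / Kah (helper20), file ClsC: first Chern classes have type `(1,1)`

* `exists_reemb` : `b + O(1)` is the hyperplane divisor of a smooth model if `b` is free on `P`;
* `c1Ty_of`.
-/

set_option autoImplicit false
set_option linter.unusedSectionVars false
set_option linter.style.haveILetI false

noncomputable section

namespace Crest.Agent.X262.Kah

open Crest.Agent.X277 Crest.Agent.X277.Lef Crest.Agent.X277.AN.G1 Crest.Agent.X277.BD
open Crest.Agent.X277.BD.Br Crest.Agent.X277.Cns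
open Crest.Agent.X262.Coh Crest.Agent.X262.Man

theorem exists_reemb {F : Type} [Field F] [Algebra ℂ F] {P : PModel ℂ F} {b : BD ℂ F}
    (hb : b ∈ On P) (hf : Free b) : ∃ Q : PModel ℂ F, oP Q = b + oP P := by
  obtain ⟨r, s, h0, h1, rfl⟩ := exists_gn hb hf
  let w : Fin (r + 1) × Fin (P.N + 1) → F := fun p => s p.1 * P.y p.2
  have hw : ∀ l, w l ≠ 0 := fun l => mul_ne_zero (h0 _) (P.y_ne _)
  have hy : ∀ l j, P.y j / P.y l.2 ∈ chI ℂ w l := fun l j => by
    have := div_mem_chI ℂ w l (l.1, j)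
    rwa [mul_div_mul_left _ _ (h0 _)] at this
  have hA : ∀ l, P.A l.2 ≤ chI ℂ w l := fun l =>
    Algebra.adjoin_le (Set.range_subset_iff.2 (hy l))
  have hfr : ∀ l (f : F), ∃ a ∈ chI ℂ w l, ∃ c ∈ chI ℂ w l, c ≠ 0 ∧ f = a / c := fun l f => by
    obtain ⟨a, ha, c, hc, h⟩ := P.frac' l.2 f
    exact ⟨a, hA l ha, c, hA l hc, h⟩
  have hsm : ∀ l, Algebra.Smooth ℂ (chI ℂ w l) := fun l => smooth_of_lp _ fun L hL => by
    obtain ⟨x, -, hx⟩ := exists_dom (P := P) (i := l.2) L fun j => hL.le (hy l j)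
    rw [← eq_of_dom_of hx hL (chI_le ((h1.mul gn_y).div_mem hx (hw l)
      fun j => hL.le (div_mem_chI ℂ w l j)))]
    exact lp_fs x
  refine ⟨ofFam w hw hfr hsm, (eq_mxf (fun i => ?_) fun V => ?_).symm⟩
  · exact mul_mem_Sec (mem_Sec_mxf s _) (y_mem_Sec _)
  · obtain ⟨i, hi⟩ := exists_val_mxf (k := ℂ) ⟨0, h0 0⟩ V
    obtain ⟨j, hj⟩ := exists_val_mxf (k := ℂ) ⟨0, P.y_ne 0⟩ V
    refine ⟨(eI _).symm (i, j), ?_⟩
    rw [ofFam_y_symm, val_add, ← hi, oP, ← hj, ← map_mul]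

theorem c1Ty_of {c1 : ∀ X : SV, BD ℂ X.F → HP X.P} (h : C1Ax c1)
    (hk : ∀ X : SV, c1 X X.h ∈ typP X 1 1) : C1Ty c1 := fun X a ha => by
  obtain ⟨b, hb, N, hf, rfl⟩ := exists_sub_On ha
  obtain ⟨Q, hQ⟩ := exists_reemb hb hf
  let c : X.On →+ HP X.P := AddMonoidHom.mk' (fun a => c1 X a) fun a b => h.add X _ a.2 _ b.2
  have h1 : oP Q ∈ On X.P := hQ ▸ add_mem hb oP_mem
  let μ : Hom X (sv Q) := morOf (AlgHom.id ℂ X.F) (by rw [pb_id]; exact h1)
  have h2 : pullH μ (c1 (sv Q) (oP Q)) = c1 X (oP Q) :=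
    h.pb μ _ oP_mem _ ⟨1, fun x g hg => by
      have := At.pb (μ := μ) rfl hg
      rw [pb_id] at this
      rw [div_one]
      exact this⟩
  have h3 : (⟨b - N • oP X.P, ha⟩ : X.On) = ⟨oP Q, h1⟩ - (N + 1) • ⟨oP X.P, oP_mem⟩ :=
    Subtype.ext (by simp only [hQ, AddSubgroupClass.coe_sub, AddSubgroupClass.coe_nsmul]; module)
  change c ⟨_, ha⟩ ∈ _
  rw [h3, map_sub, map_nsmul]
  exact sub_mem (h2 ▸ typP_pb μ (hk (sv Q)) : c1 X (oP Q) ∈ _) (nsmul_mem (hk X) _)

theorem KahC1.typ {c1 : ∀ X : SV, BD ℂ X.F → HP X.P} (hk : KahC1 c1) (h : C1Ax c1)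
    (Lam : ∀ X : SV, AddSubgroup (HP X.P)) : (thOf typP c1 Lam).TYP :=
  typ_of Lam hk.kah (c1Ty_of h hk.mem)

end Crest.Agent.X262.Kah
end
end

-- ▼ part X262/Man/FS
section

/-!
# Row 262, MAN (helper16), part 9: the Fubini-Study form is a Kaehler form

* `exists_om` : a Hermitian form as `Fib.om g`;
* `kfP X : KF X.A`, `kfP_w` : its class is the hyperplane class;
* `kahC1 : KahC1 PL.c1`, and `typ_th`, `hl_th`, `hr_th`.
-/

set_option autoImplicit false
set_option linter.unusedSectionVars false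
set_option linter.style.haveILetI false

open Set Filter Topology Function Module
open scoped ContDiff ComplexConjugate ComplexOrder Matrix

noncomputable section

namespace Crest.Agent.X262.Man

open Crest.Agent.R208.F Crest.Agent.R208.FI Crest.Agent.R208.CW Crest.Agent.R208.T
open Crest.Agent.R275.Geo (Cn Atl)
open Crest.Agent.R257.PN_835 (HC nsq pm nsq_pos)
open Crest.Agent.X277.Lef Crest.Agent.X277.AN.G1
open Crest.Agent.X262.Kah (KF res0 res0_apply res0_mem toH_res KahC1 KahP typP)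
open Crest.Agent.X262.PL (fs ec_fs pj)

variable {n : ℕ}

theorem om_smul (r : ℝ) (g : Matrix (Fin n) (Fin n) ℂ) :
    Kah.Fib.om (r • g) = (r : ℂ) • Kah.Fib.om g := by
  simp only [Kah.Fib.om, Matrix.smul_apply, Complex.real_smul, mul_smul, ← Finset.smul_sum]
  exact smul_comm _ _ _

/-- a Hermitian form in coordinates -/
theorem exists_om {κ : Type} [Fintype κ] (l : κ → Cn n →L[ℂ] ℂ) {r : ℝ} (hr : 0 < r) :
    ∃ g : Matrix (Fin n) (Fin n) ℂ, ((∀ v, (∀ k, l k v = 0) → v = 0) → g.PosDef) ∧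
      (⟨r • herm fun k => (l k).restrictScalars ℝ, 0⟩ : CF (Cn n)) = Kah.Fib.om g := by
  obtain ⟨L, h1, -, h3⟩ := exists_herm_eq l
  set L' := (L : Cn n →ₗ[ℂ] Cn n).restrictScalars ℝ with hL
  set B := (Kah.Fib.mat L').map conj with hB
  have h4 : Bᴴ = (Kah.Fib.mat L')ᵀ := by
    ext a b
    simp [hB]
  refine ⟨(r / 2) • (Bᴴ * B), fun h => Matrix.PosDef.smul
    (Matrix.PosDef.conjTranspose_mul_self B ?_) (half_pos hr), ?_⟩
  · refine (injective_iff_map_eq_zero B.mulVecLin).2 fun v hv => ?_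
    have h5 : L (WithLp.toLp 2 fun a => conj (v a)) = 0 := by
      ext b
      have h6 := congrArg conj (congrFun hv b)
      rw [Pi.zero_apply, map_zero] at h6
      refine Eq.trans ?_ h6
      refine (lin_apply ((EuclideanSpace.proj b).comp L) _).trans ?_
      simp [hB, Matrix.mulVec, dotProduct, Kah.Fib.mat, hL, Kah.Fib.ep]
    funext a
    simpa using congrArg (fun w : Cn n => conj (w a)) (h _ (h3 _ h5))
  · have h5 := Kah.Fib.pbC_om (L := L') (fun v => L.map_smul _ v) 1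
    rw [Matrix.mul_one, ← h4, ← hB, Kah.Fib.om_one, Kah.Fib.omg_eq, pbC_smul] at h5
    rw [om_smul, ← h5, h1, smul_smul]
    refine Cx.ext ?_ ?_
    · rw [Cx.csmul_re]
      simp
    · rw [Cx.csmul_im]
      simp

/-- the pull-back of the Fubini-Study form by a holomorphic family -/
theorem pull_fs_hol {N : ℕ} {Z : Cn n → HC N} {z : Cn n}
    (hZ : ∀ k, AnalyticAt ℂ (fun w => Z w k) z) (h0 : Z z ≠ 0) :
    ∃ g : Matrix (Fin n) (Fin n) ℂ,
      ((∀ v c, (∀ k, fderiv ℂ (fun w => Z w k) z v = Z z k * c) → v = 0) → g.PosDef) ∧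
      (⟨pull (fun w => ofM (pm (Z w))) (fs N) z, 0⟩ : CF (Cn n)) = Kah.Fib.om g := by
  have h1 : ContDiffAt ℝ ∞ Z z :=
    contDiffAt_pi.2 fun k => ((hZ k).contDiffAt (n := ∞)).restrict_scalars ℝ
  let D : Fin (N + 1) → Cn n →L[ℂ] ℂ := fun k => fderiv ℂ (fun w => Z w k) z
  obtain ⟨g, h2, h3⟩ := exists_om
    (fun k => D k - (Z z k / nsq (Z z)) • ∑ j, conj (Z z j) • D j)
    (mul_pos (inv_pos.2 Real.pi_pos) (inv_pos.2 (nsq_pos h0)))
  refine ⟨g, fun h => h2 fun v hv => h v ((∑ j, conj (Z z j) • D j) v / nsq (Z z)) fun k => ?_, ?_⟩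
  · have h4 := hv k
    rw [ContinuousLinearMap.sub_apply, sub_eq_zero, ContinuousLinearMap.smul_apply,
      smul_eq_mul] at h4
    rw [mul_div_assoc', mul_div_right_comm]
    exact h4
  · have h4 : ∀ k v, pj k (fderiv ℝ Z z v) = D k v := fun k v => by
      have h5 := ((pj k).hasFDerivAt.comp z (h1.differentiableAt (by simp)).hasFDerivAt).unique
        ((hZ k).differentiableAt.hasFDerivAt.restrictScalars ℝ)
      exact congrArg (fun T : Cn n →L[ℝ] ℂ => T v) h5
    rw [← h3, PL.pull_fs h1 h0, PL.d_cn (h1.of_le two_le) h0]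
    congr 3
    funext k
    ext v
    simp only [hz_apply, ContinuousLinearMap.comp_apply, h4]
    simp

variable {F : Type} [Field F] [Algebra ℂ F] {P : PModel ℂ F}

theorem exists_om_fs (X : AnP P n) (α : X.A.ι) (z : Cn n) :
    ∃ g : Matrix (Fin n) (Fin n) ℂ, z ∈ (X.A.e α).target → g.PosDef ∧
      (⟨pull ((emb X).par α) (fs P.N) z, 0⟩ : CF (Cn n)) = Kah.Fib.om g := by
  by_cases hz : z ∈ (X.A.e α).target
  swap
  · exact ⟨0, fun h => absurd h hz⟩
  obtain ⟨x, hx, rfl⟩ : ∃ x ∈ (X.A.e α).source, X.A.e α x = z :=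
    ⟨_, (X.A.e α).map_target hz, (X.A.e α).right_inv hz⟩
  have hi := X.sub α x hx
  obtain ⟨g, h1, h2⟩ := pull_fs_hol
    (Z := fun w j => X.rd α (ev (P.y j / P.y (X.r α))) w) (z := X.A.e α x)
    (fun k => AnP.analyticAt_ev hx (y_mem hi k)) (by
      rw [funext fun j => AnP.rd_self hx (ev (P.y j / P.y (X.r α)))]
      exact ev_y_ne hi)
  refine ⟨g, fun _ => ⟨h1 fun v c h => AnP.eq_zero_of_dv hx hi fun j => ?_, ?_⟩⟩
  · have h3 := h (X.r α)
    have h4 : P.y (X.r α) / P.y (X.r α) = algebraMap ℂ F 1 := by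
      rw [div_self (P.y_ne _), map_one]
    simp only [h4] at h3
    have h5 : c = 0 := by
      rw [AnP.rd_self hx, ev, LP.v_alg, one_mul] at h3
      exact h3.symm.trans (AnP.dv_alg v 1)
    exact (h j).trans (by rw [h5, mul_zero])
  · rw [← h2]
    congr 1
    refine pull_congr ?_
    filter_upwards [(X.A.e α).open_target.mem_nhds hz] with w hw
    exact jP_eq (X.sub α _ ((X.A.e α).map_target hw))

theorem fs_mem : mkF (fs P.N) 0 ∈ Z (XP P) := ec_fs.mem_Z EC.zero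

/-- **the Fubini-Study form as a Kaehler form** -/
def kfP (X : AnP P n) : KF X.A where
  om := res0 (emb X) (mkF (fs P.N) 0) fs_mem.2.1
  g α z := (exists_om_fs X α z).choose
  pos α z hz := ((exists_om_fs X α z).choose_spec hz).1
  eq α z hz := by
    refine (res0_apply _ _ hz).trans (Eq.trans ?_ ((exists_om_fs X α z).choose_spec hz).2)
    exact Cx.ext rfl (map_zero (pb _))
  closed := (res0_mem (emb X) fs_mem).2

theorem kfP_w (X : AnP P n) : (kfP X).w (emb X) = PL.c1P P (X277.BD.Br.oP P) :=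
  (toH_res (emb X) fs_mem).trans PL.c1P_oP.symm


/-- **the hyperplane class is a Kaehler class** -/
theorem kahC1 : KahC1 PL.c1 := fun X => ⟨kfP (an X.P), 1, one_pos, by
  rw [Complex.ofReal_one, one_smul]
  exact (kfP_w (an X.P)).symm⟩

variable (Lam : ∀ X : Coh.SV, AddSubgroup (HP X.P))


theorem typ_th : (thOf typP PL.c1 Lam).TYP := kahC1.typ PL.c1Ax Lam

theorem hl_th : (thOf typP PL.c1 Lam).HL := Kah.hl_of Lam kahC1

theorem hr_th : (thOf typP PL.c1 Lam).HR := Kah.hr_of Lam intBr kahC1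

end Crest.Agent.X262.Man
end
end

-- ▼ part X262/Eul93/Main
section

/-!
# X262 / Eul93 (helper93): the Euler number

* `BT A`, `drs A` : the bundle of all forms in the monomial basis, its de Rham structure;
* `KP.st_eq`      : the supertrace on the cohomology of a Kaehler package;
* `nv_eq`         : `nv A = ∑ (-1)^(p+q) h^{p,q}`;  `eulStmt : Lat.EulStmt`.
-/

set_option autoImplicit false
set_option linter.unusedSectionVars false
set_option linter.unusedVariables false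

open Set Filter Topology Complex Module
open scoped ContDiff Matrix ComplexConjugate

namespace Crest.Agent.X262.Eul93

open Crest.Agent.R275.Geo Crest.Agent.X262.Kah Crest.Agent.X262.Kah.Fib Crest.Agent.X262.Lat
open Crest.Agent.R208.F Crest.Agent.R208.CW Crest.Agent.R275.EDR890 Crest.Agent.R275.NA7763

noncomputable section

/-! ### algebra -/

section alg

variable {n : ℕ} {S : Type*} [AddCommGroup S] [Module ℂ S]

/-- the de Rham supercomplex -/
def scK (G : KA n S) : SC ℂ S := ⟨G.d, G.par, G.d_d, G.d_par⟩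

theorem st_eq (G : KP n S) :
    (scK G.toKA).st = ∑ x ∈ box n, (-1 : ℂ) ^ (x.1 + x.2) * (G.hpq x.1 x.2 : ℂ) := by
  obtain ⟨N, h⟩ := G.exists_N
  have := h.fin
  let f : (scK G.toKA).H →ₗ[ℂ] (S ⧸ N) :=
    Submodule.liftQ _ (N.mkQ ∘ₗ (LinearMap.ker G.d).subtype) (by
      rintro ⟨x, hx⟩ ⟨y, hy⟩
      exact (Submodule.Quotient.mk_eq_zero N).2 (h.of_ex ⟨y, hy⟩))
  have hf : ∀ x hx, f ((scK G.toKA).cls x hx) = N.mkQ x := fun _ _ => rfl
  have hb : Function.Bijective f := by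
    constructor
    · rw [injective_iff_map_eq_zero]
      refine (scK G.toKA).ind fun x hx h0 => ?_
      exact (SC.cls_eq_zero _ hx).2 (h.ex ((Submodule.Quotient.mk_eq_zero N).1 h0) hx)
    · intro y
      rw [← h.gq.sum_pr y, ← LinearMap.mem_range]
      refine Submodule.sum_mem _ fun x _ => ?_
      obtain ⟨z, z1, z2⟩ := h.gq_rep (h.gq.ty_pr x.1 x.2 y)
      exact ⟨(scK G.toKA).cls z z1.cl, z2⟩
  let e := LinearEquiv.ofBijective f hb
  have h1 : h.gq.par = e.conj (scK G.toKA).TH := by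
    refine LinearMap.ext fun b => ?_
    obtain ⟨a, rfl⟩ := e.surjective b
    rw [LinearEquiv.conj_apply_apply, LinearEquiv.symm_apply_apply]
    revert a
    refine (scK G.toKA).ind fun x hx => ?_
    show h.gq.par (N.mkQ x) = N.mkQ (G.par x)
    simp only [GS.par, GS.dg, LinearMap.sum_apply, LinearMap.smul_apply, map_sum, map_smul,
      h.gq_pr]
  rw [SC.st, ← LinearMap.trace_conj' _ e, ← h1]
  simp only [GS.par, GS.dg, map_sum, map_smul, GS.trace_pr, h.hpq_eq, smul_eq_mul]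

end alg

/-! ### the bundle -/

variable {n : ℕ} {M : Type} [TopologicalSpace M] {A : Atl n M}

/-- matrices in the monomial basis -/
def mb (T : Module.End ℂ (Fb n)) : Matrix (K n) (K n) ℂ := LinearMap.toMatrix bas bas T

theorem mb_apply (T : Module.End ℂ (Fb n)) (k l : K n) : mb T k l = bas.repr (T (bas l)) k :=
  LinearMap.toMatrix_apply _ _ _ _ _

theorem mb_zero : mb (0 : Module.End ℂ (Fb n)) = 0 := map_zero (LinearMap.toMatrix bas bas)

theorem mb_one : mb (1 : Module.End ℂ (Fb n)) = 1 := LinearMap.toMatrix_one bas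

theorem mb_add (S T : Module.End ℂ (Fb n)) : mb S + mb T = mb (S + T) :=
  (map_add (LinearMap.toMatrix bas bas) S T).symm

theorem mb_sum (T : Fin n → Module.End ℂ (Fb n)) : ∑ a, mb (T a) = mb (∑ a, T a) :=
  (map_sum (LinearMap.toMatrix bas bas) T _).symm

/-- coordinates in the monomial basis -/
abbrev eb (n : ℕ) : Fb n ≃ₗ[ℂ] (K n → ℂ) := (bas (n := n)).equivFun

theorem mb_mulVec (T : Module.End ℂ (Fb n)) (c : Fb n) : mb T *ᵥ eb n c = eb n (T c) :=
  LinearMap.toMatrix_mulVec_repr bas bas T c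

theorem mb_ext {m m' : Matrix (K n) (K n) ℂ} (h : ∀ c, m *ᵥ eb n c = m' *ᵥ eb n c) : m = m' := by
  apply Matrix.toLin'.injective
  refine LinearMap.ext fun v => ?_
  obtain ⟨c, rfl⟩ := (eb n).surjective v
  exact h c

theorem mb_mul (S T : Module.End ℂ (Fb n)) : mb S * mb T = mb (S * T) :=
  (LinearMap.toMatrix_mul bas S T).symm

theorem mb_anti (S T : Module.End ℂ (Fb n)) : mb S * mb T + mb T * mb S = mb (S * T + T * S) := by
  rw [mb_mul, mb_mul, mb_add]

theorem mb_ite (p : Prop) [Decidable p] :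
    mb (if p then 1 else 0 : Module.End ℂ (Fb n)) = if p then 1 else 0 := by
  split_ifs
  · exact mb_one
  · exact mb_zero

/-- the complex differential of the transition map -/
def Lc (A : Atl n M) (i j : A.ι) (z : Cn n) : Cn n →ₗ[ℝ] Cn n :=
  ((fderiv ℂ (tr A i j) z : Cn n →L[ℂ] Cn n) : Cn n →ₗ[ℂ] Cn n).restrictScalars ℝ

theorem Lc_I (i j : A.ι) (z v : Cn n) : Lc A i j z (I • v) = I • Lc A i j z v :=
  map_smul (fderiv ℂ (tr A i j) z) I v

theorem Lc_eq {i j : A.ι} {z : Cn n} (hz : z ∈ A.ov i j) : Lc A i j z = Dtr A i j z :=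
  (Dtr_eq hz).symm

theorem tau_ev {i j : A.ι} {z : Cn n} (hz : z ∈ A.ov i j) (k l : K n) :
    (fun y => mb (pbE (Lc A i j (A.e i ((A.e i).symm y)))) k l) =ᶠ[𝓝 z]
      fun y => bas.coord k (pbC (Dr (tr A i j) y) (bas l)) := by
  filter_upwards [(isOpen_ov' i j).mem_nhds hz] with y hy
  rw [(A.e i).right_inv hy.1, Lc_eq hy, mb_apply]
  rfl

/-- Wirtinger derivatives of forms -/
def pw (s : WI n) (om : Cn n → Fb n) (z : Cn n) : Fb n :=
  bif s.1 then pzbC s.2 om z else pzC s.2 om z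

theorem wd_fun (t : Fb n →ₗ[ℂ] ℂ) (s : WI n) {om : Cn n → Fb n} {z : Cn n} (h : CD 1 om z) :
    wd s (fun y => t (om y)) z = t (pw s om z) := by
  obtain ⟨b, a⟩ := s
  cases b
  · show (1 / 2 : ℂ) • (fderiv ℝ _ z (ep a) + (-I) • fderiv ℝ _ z (EuclideanSpace.single a I)) =
      t (pzC a om z)
    rw [← I_ep]
    simp only [pzC, fderiv_fun t _ h, map_smul, map_sub, neg_smul, ← sub_eq_add_neg]
  · exact dbj_fun t a h

theorem sum_tau {i j : A.ι} {x : M} (hx : x ∈ (A.e i).source ∩ (A.e j).source) (b : Bool)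
    (e : Fin n → Module.End ℂ (Fb n))
    (h : ∀ c, ∑ a, e a (pw (b, a) (fun y => pbC (Dr (tr A i j) y) c) (A.e i x)) = 0) :
    ∑ a, mb (e a) * Matrix.of (fun k l =>
      wd (b, a) (fun z => mb (pbE (Lc A i j (A.e i ((A.e i).symm z)))) k l) (A.e i x)) = 0 := by
  have hz := Kah.mem_ov hx
  have h2 := (tr_contDiffAt hz).of_le two_le_inf
  ext k l
  have h1 : ∀ a k', wd (b, a) (fun z => mb (pbE (Lc A i j (A.e i ((A.e i).symm z)))) k' l)
      (A.e i x) = eb n (pw (b, a) (fun y => pbC (Dr (tr A i j) y) (bas l)) (A.e i x)) k' :=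
    fun a k' => by
      rw [wd_congr (tau_ev hz k' l), wd_fun _ _ (CD_pbc h2 (by norm_num) _)]
      rfl
  have h3 := congrArg (fun c => eb n c k) (h (bas l))
  simp only [map_sum, map_zero, Finset.sum_apply, Pi.zero_apply] at h3
  rw [Matrix.sum_apply, Matrix.zero_apply, ← h3]
  refine Finset.sum_congr rfl fun a _ => ?_
  rw [← mb_mulVec]
  simp only [Matrix.mul_apply, Matrix.of_apply, h1]
  rfl

/-- the bundle of all forms, graded by the antiholomorphic degree -/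
@[reducible] def BT (A : Atl n M) : FBun A where
  κ := K n
  deg := tq
  e a := mb (ezb a)
  io a := mb (izb a)
  e_deg a k l h := (toMatrix_type (Ty.ezb_mem a (bas_mem l)) h).2
  io_deg a k l h := by
    have h1 := (toMatrix_type (Ty.izb_mem' a (bas_mem l)) h).2
    have h2 : tq l ≠ 0 := fun h0 => h (by
      rw [mb_apply, Ty.izb_eq_zero a (h0 ▸ bas_mem l), map_zero]; rfl)
    omega
  ee a b := by rw [mb_anti, ezb_ezb, mb_zero]
  ii a b := by rw [mb_anti, izb_izb, mb_zero]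
  ei a b := by rw [mb_anti, ezb_izb, mb_ite]
  τ i j x := mb (pbE (Lc A i j (A.e i x)))
  τ_smooth i j k l z hz :=
    ((CD_fun _ (CD_pbc (j := ∞) (tr_contDiffAt hz) (by simp) (bas l))).congr_of_eventuallyEq
      (tau_ev hz k l)).contDiffWithinAt
  τ_deg i j x k l h := (toMatrix_type (Ty.pb_mem (Lc_I i j _) (bas_mem l)) h).2
  τ_self i x hx := by
    rw [Lc_eq (Kah.mem_ov ⟨hx, hx⟩), Dtr_self ((A.e i).map_source hx),
      ← mb_one]
    congr 1
    exact LinearMap.ext fun c => Cx.ext (pb_id _) (pb_id _)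
  τ_mul i j k x hx := by
    rw [mb_mul, Lc_eq (Kah.mem_ov hx.1), Lc_eq (Kah.mem_ov ⟨hx.1.2, hx.2⟩),
      Lc_eq (Kah.mem_ov ⟨hx.1.1, hx.2⟩)]
    congr 1
    refine LinearMap.ext fun c => ?_
    show pbC _ (pbC _ c) = pbC _ c
    rw [Kah.pbC_comp, ← Dtr_comp (Kah.mem_ov hx.1) (Kah.mem_ov ⟨hx.1.1, hx.2⟩), tr_e hx.1.1]
  τ_symb i j x hx b := mb_ext fun c => by
    rw [Matrix.sum_mulVec, mb_mul, mb_mulVec]
    simp only [Matrix.smul_mulVec, mb_mul, mb_mulVec]
    show _ = eb n (pbC _ (dzb b * c))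
    rw [map_mul, pbC_dzb (Lc_I i j _), Finset.sum_mul, map_sum]
    exact Finset.sum_congr rfl fun a _ => by rw [smul_mul_assoc, map_smul]; rfl
  α _ _ := 0
  α_smooth _ _ _ := contDiffOn_const
  α_deg _ _ _ _ h := (h rfl).elim
  α_tr i j x hx := by
    rw [Matrix.zero_mul, Matrix.mul_zero, add_zero]
    exact sum_tau hx true ezb fun c => dbC_pbc (tr_holo (Kah.mem_ov hx))
      ((tr_contDiffAt (Kah.mem_ov hx)).of_le two_le_inf) c

/-- the de Rham structure -/
def drs (A : Atl n M) : DRS (BT A) where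
  α0 _ _ := rfl
  pdeg := tp
  f a := mb (ez a)
  jo a := mb (iz a)
  e_pdeg a k l h := (toMatrix_type (Ty.ezb_mem a (bas_mem l)) h).1
  f_deg a k l h := (toMatrix_type (Ty.ez_mem a (bas_mem l)) h).2
  f_pdeg a k l h := (toMatrix_type (Ty.ez_mem a (bas_mem l)) h).1
  ff a b := by rw [mb_anti, ez_ez, mb_zero]
  fe a b := by rw [mb_anti, ez_ezb, mb_zero]
  fj a b := by rw [mb_anti, ez_iz, mb_ite]
  fi a b := by rw [mb_anti, ez_izb, mb_zero]
  ej a b := by rw [mb_anti, ezb_iz, mb_zero]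
  num := by
    simp only [mb_mul]
    rw [mb_sum, mb_sum, mb_add]
    ext k l
    rw [mb_apply]
    show bas.repr (Nzb (bas l) + Nz (bas l)) k = _
    rw [Nzb_bas, Nz_bas, ← add_smul, map_smul, Basis.repr_self, Matrix.diagonal_apply,
      Finsupp.smul_apply, Finsupp.single_apply]
    split_ifs with h1 h2 h2
    · rw [h1]; simp
    · exact (h2 h1.symm).elim
    · exact (h1 h2.symm).elim
    · simp
  τ_pdeg i j x k l h := (toMatrix_type (Ty.pb_mem (Lc_I i j _) (bas_mem l)) h).1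
  f_symb i j x hx b := mb_ext fun c => by
    rw [Matrix.sum_mulVec, mb_mul, mb_mulVec]
    simp only [Matrix.smul_mulVec, mb_mul, mb_mulVec]
    show _ = eb n (pbC _ (dz b * c))
    rw [map_mul, pbC_dz (Lc_I i j _), Finset.sum_mul, map_sum]
    exact Finset.sum_congr rfl fun a _ => by rw [smul_mul_assoc, map_smul]; rfl
  f_closed i j x hx := sum_tau hx false ez fun c => by
    show dlC _ _ = 0
    rw [dlC_eq]
    simp only [conj_pbC]
    rw [dbC_pbc (tr_holo (Kah.mem_ov hx)) ((tr_contDiffAt (Kah.mem_ov hx)).of_le two_le_inf),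
      map_zero]
  k0 := ∅
  vac k := by
    show tq k + tp k = 0 ↔ _
    rw [add_comm, tp_add_tq, Finset.card_eq_zero]

open Classical in
/-- a form as a family of coordinate vectors -/
def toT (u : FS A) : A.ι → M → K n → ℂ := fun i x =>
  if x ∈ (A.e i).source then eb n (u.1 i (A.e i x)) else 0

theorem toT_of_mem (u : FS A) {i : A.ι} {x : M} (hx : x ∈ (A.e i).source) :
    toT u i x = eb n (u.1 i (A.e i x)) := if_pos hx

theorem toT_ev (u : FS A) {i : A.ι} {z : Cn n} (hz : z ∈ (A.e i).target) :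
    (fun y => toT u i ((A.e i).symm y)) =ᶠ[𝓝 z] fun y => eb n (u.1 i y) := by
  filter_upwards [(A.e i).open_target.mem_nhds hz] with y hy
  rw [toT_of_mem u ((A.e i).map_target hy), (A.e i).right_inv hy]

theorem sm_eb (u : FS A) {i : A.ι} {z : Cn n} (hz : z ∈ (A.e i).target) :
    ContDiffAt ℝ ∞ (fun y => eb n (u.1 i y)) z :=
  contDiffAt_pi.2 fun k => CD_fun (bas.coord k) (u.sm hz)

theorem toT_mem (u : FS A) : toT u ∈ SecOn (BT A) ⊤ := by
  refine ⟨fun i x hx _ => ?_, fun i x hx => if_neg fun h => hx ⟨h, trivial⟩,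
    fun i j x hx _ => ?_⟩
  · exact (sm_eb u ((A.e i).map_source hx)).congr_of_eventuallyEq
      (toT_ev u ((A.e i).map_source hx))
  · rw [toT_of_mem u hx.1, toT_of_mem u hx.2, u.tr' (Kah.mem_ov hx), tr_e hx.1,
      ← Lc_eq (Kah.mem_ov hx)]
    exact (mb_mulVec (pbE _) _).symm

theorem sec_ext {s s' : SecOn (BT A) ⊤} (h : ∀ i, ∀ x ∈ (A.e i).source, s.1 i x = s'.1 i x) :
    s = s' := Subtype.ext (SecOn.ext_of s.2 s'.2 fun x _ => (A.cover x).imp fun i hi =>
      ⟨hi, h i x hi⟩)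

/-- forms as sections -/
def eT (A : Atl n M) : FS A →ₗ[ℂ] SecOn (BT A) ⊤ where
  toFun u := ⟨toT u, toT_mem u⟩
  map_add' u v := sec_ext fun i x hx => by
    show toT (u + v) i x = toT u i x + toT v i x
    rw [toT_of_mem _ hx, toT_of_mem _ hx, toT_of_mem _ hx, FS.add_apply, map_add]
  map_smul' c u := sec_ext fun i x hx => by
    show toT (c • u) i x = c • toT u i x
    rw [toT_of_mem _ hx, toT_of_mem _ hx, FS.smul_apply, map_smul]

theorem eT_inj : Function.Injective (eT A) := fun u v h => FS.ext' fun i z hz => by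
  have h1 : toT u i ((A.e i).symm z) = toT v i ((A.e i).symm z) :=
    congrArg (fun s : SecOn (BT A) ⊤ => s.1 i ((A.e i).symm z)) h
  exact (eb n).injective ((toT_ev u hz).self_of_nhds.symm.trans
    (h1.trans (toT_ev v hz).self_of_nhds))

theorem eT_surj : Function.Surjective (eT A) := fun s => by
  refine ⟨FS.mk' (fun i z => (eb n).symm (s.1 i ((A.e i).symm z))) (fun i z hz => ?_)
    fun i j z hz => ?_, sec_ext fun i x hx => ?_⟩
  · simp only [Basis.equivFun_symm_apply]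
    have h := s.2.1 i _ ((A.e i).map_target hz) trivial
    rw [SmP, (A.e i).right_inv hz] at h
    exact CD.sum fun k _ => CD_fsmul (contDiffAt_pi.1 h k) (CD.const _)
  · apply (eb n).injective
    have hx : (A.e i).symm z ∈ (A.e i).source ∩ (A.e j).source :=
      ⟨(A.e i).map_target hz.1, hz.2⟩
    rw [LinearEquiv.apply_symm_apply, symm_tr hz, s.2.2.2 i j _ hx trivial]
    have h := mb_mulVec (pbE (Dtr A i j z)) ((eb n).symm (s.1 j ((A.e i).symm z)))
    rw [LinearEquiv.apply_symm_apply] at h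
    show mb (pbE (Lc A i j (A.e i ((A.e i).symm z)))) *ᵥ _ = _
    rw [(A.e i).right_inv hz.1, Lc_eq hz]
    exact h
  · show toT _ i x = _
    rw [toT_of_mem _ hx, FS.mk'_apply ((A.e i).map_source hx), (A.e i).left_inv hx,
      LinearEquiv.apply_symm_apply]

theorem eT_d (u : FS A) : ((drs A).sc ⊤).d (eT A u) = eT A (dF A u) := sec_ext fun i x hx => by
  have hz := (A.e i).map_source hx
  have h1 : ∀ s, wd s (fun y => eb n (u.1 i y)) (A.e i x) = eb n (pw s (u.1 i) (A.e i x)) :=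
    fun s => funext fun k => by
      rw [wd_pi ((sm_eb u hz).differentiableAt (by simp))]
      exact wd_fun (bas.coord k) s (u.sm1 hz)
  show (drs A).dOn _ (toT u) i x = toT _ i x
  rw [(drs A).dOn_apply hx (by trivial), (drs A).Φ.D_congr (toT_ev u hz), toT_of_mem _ hx,
    dF_apply _ hz, dC_eq (u.sm1 hz), Fock.D, Fintype.sum_prod_type, Fintype.sum_bool, add_comm,
    dlC, dbC, map_add, map_sum, map_sum]
  simp only [h1]
  congr 1
  · exact Finset.sum_congr rfl fun a _ => mb_mulVec (ez a) _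
  · exact Finset.sum_congr rfl fun a _ => mb_mulVec (ezb a) _

theorem eT_T (u : FS A) : ((drs A).sc ⊤).T (eT A u) = eT A (invF A u) := sec_ext fun i x hx => by
  funext k
  show (-1 : ℂ) ^ (tq k + tp k) * toT u i x k = toT _ i x k
  rw [toT_of_mem _ hx, toT_of_mem _ hx, add_comm]
  exact (repr_diag (T := invL' n) (f := fun k => (-1 : ℂ) ^ (tp k + tq k))
    (fun S => Ty.invC_eq (bas_mem S)) _ k).symm

variable [T2Space M] [Fintype A.ι] [CompactSpace M] (K : KF A) (P : Part A)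

/-- **the Euler number** in terms of the Hodge numbers -/
theorem nv_eq (hA : Crest.Agent.R275.GC293.GoodA A) :
    nv A = ∑ x ∈ box n, (-1 : ℤ) ^ (x.1 + x.2).toNat * ((K.kp P).hpq x.1 x.2 : ℤ) := by
  let φ : SC.Hom (scK (K.kp P).toKA) ((drs A).sc ⊤) :=
    ⟨eT A, fun u => (eT_d u).trans (congrArg (eT A) (K.kp_d P u).symm),
      fun u => (eT_T u).trans (congrArg (eT A) (K.kp_par P u).symm)⟩
  have h := (SCx.iso_quasi φ eT_inj eT_surj).st_eq
  rw [((drs A).nerve_atl hA P).2, st_eq] at h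
  apply Int.cast_injective (α := ℂ)
  rw [nv, ← h]
  push_cast
  refine Finset.sum_congr rfl fun x hx => ?_
  obtain ⟨p, q⟩ := x
  have := mem_box.1 hx
  rw [← zpow_natCast, Int.toNat_of_nonneg (by omega)]

include K P in
/-- **the Euler number** in terms of the Betti numbers -/
theorem nv_eq_bet (hA : Crest.Agent.R275.GC293.GoodA A) :
    nv A = ∑ k ∈ Finset.range (2 * n + 1), (-1 : ℤ) ^ k * (bet A k : ℤ) := by
  rw [nv_eq K P hA, ← Finset.sum_fiberwise_of_maps_to (s := box n) (t := Finset.range (2 * n + 1))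
    (g := fun x => (x.1 + x.2).toNat) fun ⟨p, q⟩ hx => by
      have := mem_box.1 hx
      rw [Finset.mem_range]; omega]
  refine Finset.sum_congr rfl fun k _ => ?_
  rw [Irr93.bet_eq_box K P, Nat.cast_sum, Finset.mul_sum]
  refine Finset.sum_congr (Finset.filter_congr fun ⟨p, q⟩ hx => ?_) fun ⟨p, q⟩ hx => ?_
  · have := mem_box.1 hx
    omega
  · rw [(Finset.mem_filter.1 hx).2, Int.toNat_natCast]

open Crest.Agent.X277.Lef Crest.Agent.X277.AN.G1 in
/-- **the Euler number of a surface** -/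
theorem eulStmt : EulStmt := by
  intro F _ _ P b X _
  let K : KF X.A := KF.ofKah (Crest.Agent.R273.FS_333.fsKah X.Pr)
  have h0 := Irr93.bet_zero K X.PA
  have h4 := Irr93.bet_dual K X.PA (k := 4) (l := 0) rfl
  have h3 := Irr93.bet_dual K X.PA (k := 3) (l := 1) rfl
  rw [nv_eq_bet K X.PA X.good]
  simp only [Finset.sum_range_succ, Finset.range_zero, Finset.sum_empty, h4, h3, h0]
  push_cast
  ring

end

end Crest.Agent.X262.Eul93
end

-- ▼ part X262/PD/Pn
section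

/-!
# Row 262, PD (helper97): the cohomology of projective space

* `LinF X Q` : a field of complex lines, `eL Q` its Euler form, `LinF.gysin`, `LinF.low`;
* `sph_exact` : the cohomology of an odd sphere;  `pn_forms`;
* `hodd_pn`, `th_pn`, `th_kunp`.
-/

set_option autoImplicit false
set_option linter.unusedSectionVars false
set_option linter.style.haveILetI false

open Set Module
open scoped ContDiff ComplexConjugate
open Crest.Agent.R208 Crest.Agent.R208.F Crest.Agent.R208.FI Crest.Agent.R208.T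
open Crest.Agent.R208.CW (SMap integ)
open Crest.Agent.R208.CM (MM RI jj PL WL rcL)
open Crest.Agent.R257.PN_835 (pm nsq nsq_pos pm_smul PN)
open Crest.Agent.X277 Crest.Agent.X277.Lef Crest.Agent.X277.AN.G1 Crest.Agent.X277.BD
open Crest.Agent.X262.Man

noncomputable section

namespace Crest.Agent.X262.PD

section taut

variable {E : Type} [NormedAddCommGroup E] [NormedSpace ℝ E] [FiniteDimensional ℝ E]
  {X : Set E} {m d j : ℕ} {Q : E → MM m} {b : E → Ext E}

/-- a field of complex lines -/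
structure LinF (X : Set E) (Q : E → MM m) : Prop where
  sm : ∀ x ∈ X, ContDiffAt ℝ ∞ Q x
  ex : ∀ x ∈ X, ∃ z : Fin m → ℂ, ∑ a, ‖z a‖ ^ 2 = 1 ∧ Q x = jj id z

/-- the Euler form -/
def eL (Q : E → MM m) : E → Ext E := eR (ι := Unit) (fun x => PL (Q x)) fun x => WL (Q x)

/-- the circle bundle -/
abbrev SL (X : Set E) (Q : E → MM m) : Set (E × EuclideanSpace ℝ (RI m)) :=
  Sph X fun x => PL (Q x)


namespace LinF

variable (h : LinF X Q)
include h

theorem or : OR (ι := Unit) X (fun x => PL (Q x)) fun x => WL (Q x) := by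
  refine ⟨fun x hx => CM.contDiff_PL.contDiffAt.comp x (h.sm x hx),
    fun x hx I => (CM.contDiff_WL I).contDiffAt.comp x (h.sm x hx), fun x hx => ?_⟩
  obtain ⟨z, hz, e⟩ := h.ex x hx
  rw [e]
  refine ⟨CM.fm z, CM.fm_tr_mul hz, fun v i => ?_, fun I => CM.WL_jj (g := id) z I⟩
  rw [PL, mE_apply, CM.Pm_jj]
  rfl

theorem ec : EC X (eL Q) := by
  obtain ⟨⟨h1, h2, h3⟩, -⟩ := mem_Z_iff.1 (CW.ef_mem_Z (OR.of h.or))
  exact ⟨h1, h2, h3⟩

theorem gysin (hX : Sub d X) (hc : IsPreconnected X) (sb : Sm X b) (cb : Cl X b)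
    (hb : Hom (j + 2) b) (h0 : Coh (SL X Q) (pull Prod.fst b) 0) :
    ∃ c, Sm X c ∧ Cl X c ∧ Hom j c ∧ Coh X b (c * eL Q) :=
  gysin_all hX hc h.or sb cb (by simpa using hb) h0

theorem low (hX : Sub d X) (hc : IsPreconnected X) (sb : Sm X b) (cb : Cl X b)
    (hb : Hom j b) (hj : j < 2) (h0 : Coh (SL X Q) (pull Prod.fst b) 0) : Coh X b 0 :=
  gysin_low_all hX hc h.or sb cb hb (by simpa using hj) h0

theorem exists_smul {x : E × EuclideanSpace ℝ (RI m)} (hx : x ∈ SL X Q) :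
    ∃ (z : Fin m → ℂ) (w : ℂ), ∑ a, ‖z a‖ ^ 2 = 1 ∧ Q x.1 = jj id z ∧ w ≠ 0 ∧
      x.2 = rcL m (w • z) := by
  obtain ⟨z, hz, e⟩ := h.ex x.1 hx.1.1
  have h1 : PL (Q x.1) x.2 = x.2 := hx.1.2
  rw [e, CM.PL_jj_apply] at h1
  refine ⟨z, _, hz, e, fun h0 => ?_, h1.symm⟩
  rw [h0, zero_smul, map_zero] at h1
  simpa [← h1] using hx.2

/-- the cohomology of the base of a circle bundle whose total space is a sphere -/
theorem forms (hX : Sub d X) (hc : IsPreconnected X) {J : ℕ}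
    (hS : ∀ j b, 0 < j → j < J → Sm X b → Cl X b → Hom j b → Coh (SL X Q) (pull Prod.fst b) 0)
    (hj : j < J) (sb : Sm X b) (cb : Cl X b) (hb : Hom j b) :
    ∃ r : ℝ, (Odd j → r = 0) ∧ Coh X b (r • eL Q ^ (j / 2)) := by
  induction j using Nat.twoStepInduction generalizing b with
  | zero =>
    obtain ⟨r, hr⟩ := const_of_closed hX hc sb cb hb
    exact ⟨r, by simp, Coh.of_eqv (Eqv.of_eq fun x hx => by
      simp [hr x hx, Algebra.algebraMap_eq_smul_one])⟩
  | one => exact ⟨0, fun _ => rfl, by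
      simpa using h.low hX hc sb cb hb one_lt_two (hS _ _ one_pos hj sb cb hb)⟩
  | more j ih _ =>
    obtain ⟨c, sc, cc, dc, h1⟩ := h.gysin hX hc sb cb hb (hS _ _ (by omega) hj sb cb hb)
    obtain ⟨r, h2, h3⟩ := ih (by omega) sc cc dc
    refine ⟨r, fun ho => h2 (by simpa [Nat.odd_add] using ho), h1.trans ?_⟩
    rw [Nat.add_div_right _ two_pos, pow_succ, ← smul_mul_assoc]
    exact h3.mul_right h.ec.sm h.ec.cl

end LinF

/-- the unit sphere -/
abbrev S0 (m : ℕ) : Set (ℝ × EuclideanSpace ℝ (RI m)) := Sph {0} fun _ => 1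

theorem sph_exact {b : ℝ × EuclideanSpace ℝ (RI (m + 1)) → Ext _} (h0 : 0 < j)
    (hj : j < 2 * m + 1) (sb : Sm (S0 (m + 1)) b) (cb : Cl (S0 (m + 1)) b) (hb : Hom j b) :
    Coh (S0 (m + 1)) b 0 := by
  have h1 : OR (ι := Fin (m + 1)) ({0} : Set ℝ)
      (fun _ => (1 : EuclideanSpace ℝ (RI (m + 1)) →L[ℝ] _))
      fun _ I => ((1 : Matrix (RI (m + 1)) (RI (m + 1)) ℝ).submatrix I id).det :=
    ⟨fun _ _ => contDiffAt_const, fun _ _ _ => contDiffAt_const, fun _ _ =>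
      ⟨1, by simp, fun v i => by simp [Matrix.one_apply], fun _ => rfl⟩⟩
  obtain ⟨c, -, -, dc, h2⟩ := sph_low_all (Van.sub_singleton 0) isPreconnected_singleton h1
    (by rw [Fintype.card_fin]; omega) sb cb hb
  have h3 := (Coh.of_eqv (resZero_iff.1 (resZero_of_hom (Van.sub_singleton 0) dc h0))).pull
    (smap_fstS (P := fun _ => (1 : EuclideanSpace ℝ (RI (m + 1)) →L[ℝ] _)))
  rw [pull_zero'] at h3
  exact h2.trans h3

/-- complex coordinates -/
def cxL {m : ℕ} (v : EuclideanSpace ℝ (RI m)) (a : Fin m) : ℂ := v (a, 0) + v (a, 1) * Complex.I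

theorem cxL_rcL (z : Fin m → ℂ) : cxL (rcL m z) = z := funext fun a => by
  rw [cxL, CM.rcL_zero_apply, CM.rcL_one_apply, Complex.re_add_im]

theorem rcL_cxL (v : EuclideanSpace ℝ (RI m)) : rcL m (cxL v) = v := by
  ext ⟨a, s⟩
  fin_cases s
  · simpa [cxL] using CM.rcL_zero_apply (cxL v) a
  · simpa [cxL] using CM.rcL_one_apply (cxL v) a

theorem contDiff_cxL (a : Fin m) : ContDiff ℝ ∞ fun v : EuclideanSpace ℝ (RI m) => cxL v a :=
  have h (p : RI m) : ContDiff ℝ ∞ fun v : EuclideanSpace ℝ (RI m) => (v p : ℂ) :=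
    Complex.ofRealCLM.contDiff.comp (EuclideanSpace.proj p : _ →L[ℝ] ℝ).contDiff
  (h _).add ((h _).mul contDiff_const)

theorem cxL_ne {v : EuclideanSpace ℝ (RI m)} (hv : ‖v‖ = 1) : cxL v ≠ 0 := fun h => by
  rw [← rcL_cxL v, h, map_zero, norm_zero] at hv
  exact zero_ne_one hv

theorem pm_unit {z : Fin (m + 1) → ℂ} (hz : ∑ a, ‖z a‖ ^ 2 = 1) : pm z = jj id z := by
  ext a b
  rw [R257.PN_835.pm_apply, show nsq z = 1 from hz]
  simp [jj]

end taut

section pn

variable {F : Type} [Field F] [Algebra ℂ F] {P : PModel ℂ F}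

theorem dim_le (P : PModel ℂ F) : dim ℂ F ≤ P.N := by
  obtain ⟨x⟩ : Nonempty (Pts P) := inferInstance
  obtain ⟨α, hx⟩ := (an P).A.cover x
  obtain ⟨i, hi⟩ := exists_pat x
  have h := LinearMap.finrank_le_finrank_of_injective (f := LinearMap.pi fun j : Fin P.N =>
    (fderiv ℂ ((an P).rd α (AN.G1.ev (P.y (i.succAbove j) / P.y i))) ((an P).A.e α x)).toLinearMap)
    ((injective_iff_map_eq_zero _).2 fun w hw => AnP.eq_zero_of_dv hx hi fun j => by
      rcases Fin.eq_self_or_eq_succAbove i j with rfl | ⟨j, rfl⟩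
      · rw [div_self (P.y_ne j), ← map_one (algebraMap ℂ F), AnP.dv_alg]
      · exact congrFun hw j)
  simpa using h

theorem linF_XP (P : PModel ℂ F) : LinF (XP P) toM := by
  refine ⟨fun x _ => contDiffAt_pi.2 fun a => contDiffAt_pi.2 fun b =>
    (contDiff_entry (a, b)).contDiffAt, ?_⟩
  rintro _ ⟨x, rfl⟩
  obtain ⟨z, h1, h2⟩ := R257.PN_835.exists_unit x.val
  exact ⟨z, h1, h2.symm.trans (pm_unit h1)⟩

theorem aeval_div_hom {σ : Type*} {p : MvPolynomial σ ℂ} {d : ℕ} (h : p.IsHomogeneous d)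
    (v : σ → F) (c : F) :
    MvPolynomial.aeval (fun j => v j / c) p = MvPolynomial.aeval v p / c ^ d := by
  classical
  rw [MvPolynomial.aeval_def, MvPolynomial.aeval_def, MvPolynomial.eval₂_eq, MvPolynomial.eval₂_eq,
    Finset.sum_div]
  refine Finset.sum_congr rfl fun e he => ?_
  have h1 : ∑ i ∈ e.support, e i = d := by
    rw [← h (MvPolynomial.mem_support_iff.1 he), Finsupp.weight_apply, Finsupp.sum]
    simp
  simp only [div_pow, Finset.prod_div_distrib, Finset.prod_pow_eq_pow_sum, h1]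
  ring

variable (hP : ∀ (m : ℕ) (q : MvPolynomial (Fin (P.N + 1)) ℂ), q.IsHomogeneous m →
  MvPolynomial.aeval P.y q = 0 → q = 0)
include hP

open MvPolynomial in
theorem mem_ptSet (x : PN P.N) : x ∈ ptSet P := fun i hi q hq => by
  have h1 : (∑ e ∈ Finset.range (q.totalDegree + 1),
      X i ^ (q.totalDegree - e) * homogeneousComponent e q).IsHomogeneous q.totalDegree := by
    refine IsHomogeneous.sum _ _ _ fun e he => ?_
    have h1 := ((isHomogeneous_X ℂ i).pow (q.totalDegree - e)).mul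
      (homogeneousComponent_isHomogeneous e q)
    rwa [one_mul, Nat.sub_add_cancel (Nat.lt_succ_iff.1 (Finset.mem_range.1 he))] at h1
  have h2 {B : Type} [Field B] [Algebra ℂ B] {v : Fin (P.N + 1) → B} (hv : v i = 1) :
      aeval v (∑ e ∈ Finset.range (q.totalDegree + 1),
        X i ^ (q.totalDegree - e) * homogeneousComponent e q) = aeval v q := by
    conv_rhs => rw [← sum_homogeneousComponent q]
    simp [hv]
  have h3 := aeval_div_hom h1 P.y (P.y i)
  rw [h2 (div_self (P.y_ne i)), hq, eq_comm, div_eq_zero_iff, or_iff_left (pow_ne_zero _ (P.y_ne i))]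
    at h3
  have h4 := h2 (R257.PN_835.lft_self hi)
  rw [hP _ _ h1 h3, map_zero] at h4
  exact h4.symm

theorem pm_mem {z : Fin (P.N + 1) → ℂ} (hz : z ≠ 0) : ofM (pm z) ∈ XP P :=
  ⟨⟨R257.PN_835.cls z hz, mem_ptSet hP _⟩, rfl⟩

theorem pn_forms {j : ℕ} {b : Hm P.N → Ext (Hm P.N)} (sb : Sm (XP P) b) (cb : Cl (XP P) b)
    (hb : Hom j b) : ∃ r : ℝ, (Odd j → r = 0) ∧ Coh (XP P) b (r • eL toM ^ (j / 2)) := by
  rcases lt_or_ge j (2 * P.N + 1) with hj | hj
  swap
  · refine ⟨0, fun _ => rfl, Coh.of_eqv ?_⟩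
    rw [zero_smul]
    exact resZero_iff.1 (resZero_of_hom (subP P) hb (by have := dim_le P; omega))
  refine (linF_XP P).forms (subP P) (isConnected_XP P).isPreconnected (fun j b h0 hj sb cb hb => ?_)
    hj sb cb hb
  have hg : SMap (S0 (P.N + 1)) (XP P) fun x => ofM (pm (cxL x.2)) :=
    ⟨fun x hx => (contDiffAt_piLp 2).2 fun p => contDiffAt_pm
      (fun k => (contDiff_cxL k).contDiffAt.comp x contDiffAt_snd) (cxL_ne hx.2) p.1 p.2,
      fun x hx => pm_mem hP (cxL_ne hx.2)⟩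
  have hh : SMap (SL (XP P) toM) (S0 (P.N + 1)) fun x => (0, x.2) :=
    ⟨fun x _ => contDiffAt_const.prodMk contDiffAt_snd, fun x hx => ⟨⟨rfl, rfl⟩, hx.2⟩⟩
  have h1 := (sph_exact h0 hj (sb.pull hg) (cb.pull hg sb) hb.pull).pull hh
  rw [pull_zero'] at h1
  refine (Coh.of_eqv (eqv_pull_pull hh hg smap_fstS (fun x hx => ?_) b)).symm.trans h1
  obtain ⟨z, w, h2, h3, h4, h5⟩ := (linF_XP P).exists_smul hx
  rw [h5, cxL_rcL, pm_smul h4, pm_unit h2, ← h3]
  rfl

theorem hodd_pn : Hodd (XP P) := hodd_of (subP P) fun j hj _ u su cu hu => by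
  obtain ⟨r, h1, h2⟩ := pn_forms hP su cu hu
  rwa [h1 hj, zero_smul] at h2

theorem dgP_pn (k : ℕ) : dgP P k ≤ Submodule.span ℂ {rcl (linF_XP P).ec ^ k} := fun c hc => by
  have h1 : ∀ a (ha : EC (XP P) a), Hom (2 * k) a →
      rcl ha ∈ Submodule.span ℂ {rcl (linF_XP P).ec ^ k} := fun a ha da => by
    obtain ⟨r, -, h⟩ := pn_forms hP ha.sm ha.cl da
    rw [Nat.mul_div_cancel_left k two_pos] at h
    rw [rcl_congr ha (((linF_XP P).ec.pow k).smul r) h, rcl_smul _ ((linF_XP P).ec.pow k),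
      rcl_pow (linF_XP P).ec]
    exact Submodule.smul_mem _ _ (Submodule.mem_span_singleton_self _)
  obtain ⟨a, b, ha, hb, da, db, rfl⟩ := exists_rcl_HD hc
  exact add_mem (h1 a ha da) (Submodule.smul_mem _ _ (h1 b hb db))

end pn

section th

open Crest.Agent.X262.Coh

variable (typ : ∀ X : SV, ℕ → ℕ → Submodule ℂ (HP X.P)) (c1 : ∀ X : SV, BD ℂ X.F → HP X.P)
  (Lam : ∀ X : SV, AddSubgroup (HP X.P))

theorem th_pn (hM : (thOf typ c1 Lam).MAN) : (thOf typ c1 Lam).PN := fun X hX k => by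
  refine le_antisymm (fun a ha => ?_) ((Submodule.span_singleton_le_iff_mem _ _).2 (hM.hc_pow X k))
  rcases lt_or_ge X.dim k with hk | hk
  · rw [hM.dg_gt X hk] at ha
    exact ha ▸ zero_mem _
  obtain ⟨r, hr⟩ := Submodule.mem_span_singleton.1 (dgP_pn hX k (hM.hc_pow X k))
  obtain ⟨s, rfl⟩ := Submodule.mem_span_singleton.1 (dgP_pn hX k ha)
  have h0 : r ≠ 0 := by
    rintro rfl
    have h1 := hM.itg_hc X
    rw [← Nat.add_sub_cancel' hk, pow_add, ← hr, zero_smul, zero_mul, map_zero] at h1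
    exact X.dgr_ne h1.symm
  exact Submodule.mem_span_singleton.2 ⟨s / r, by rw [← hr, smul_smul, div_mul_cancel₀ _ h0]⟩

theorem th_kunp (X Y : SV) (hX : ∀ (m : ℕ) (q : MvPolynomial (Fin (X.P.N + 1)) ℂ),
    q.IsHomogeneous m → MvPolynomial.aeval X.P.y q = 0 → q = 0) (z : HP (Y.prod X).P) :
    z ∈ Submodule.span ℂ {z | ∃ a b, z = pullH (fst Y X) a * pullH (snd Y X) b} :=
  th_span (Or.inr (hodd_pn hX)) z

end th

end Crest.Agent.X262.PD
end
end

-- ▼ part X262/Noe83/Th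
section

/-!
# Row 262, NOE (helper83), part 3: Noether's formula for the de Rham theory

* `mem_Dg_iff_degC`, `mem_Zk_iff` : the two notions of degree agree;
* `bet_eq`  : the even Betti numbers are the dimensions of the groups `HD`;
* `noeA : Lat.NoeAStmt`;  `noe_th : EulStmt → IrrStmt → (thOf typ c1 Lam).NOE`.
-/

set_option autoImplicit false
set_option linter.unusedSectionVars false

open Set Module

noncomputable section

namespace Crest.Agent.X262.Noe83

open Crest.Agent.R208.F Crest.Agent.R208.FI Crest.Agent.R208.CW Crest.Agent.R208.T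
open Crest.Agent.R275.Geo (Cn Atl)
open Crest.Agent.X262.Man Crest.Agent.X262.Kah Crest.Agent.X262.Lat Crest.Agent.X262.Coh
open Crest.Agent.X277 Crest.Agent.X277.Lef Crest.Agent.X277.AN.G1 Crest.Agent.X277.BD

variable {E : Type} [NormedAddCommGroup E] [NormedSpace ℝ E] [FiniteDimensional ℝ E]

theorem mem_Dg_iff_degC {k : ℕ} {a : CF E} : a ∈ Frm.Dg E k ↔ DegC k a := by
  have h1 : ∀ {k : ℕ} {a : CF E}, a ∈ Frm.Dg E k → DegC k a := fun h =>
    ⟨fun q hq => AlternatingMap.ext fun v => by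
      rw [← Frm.evC_re, Frm.evC_of_Dg h hq.symm]; rfl, fun q hq => AlternatingMap.ext fun v => by
      rw [← Frm.evC_im, Frm.evC_of_Dg h hq.symm]; rfl⟩
  refine ⟨h1, fun h => Frm.mem_Dg_iff.2 (Cx.ext (ext_evA fun q => ?_) (ext_evA fun q => ?_))⟩
  · by_cases hq : q = k
    · subst hq
      exact AlternatingMap.ext fun v => by rw [← Frm.evC_re, Frm.evC_dg, Frm.evC_re]
    · rw [(h1 (Frm.dg_mem k a)).1 q hq, h.1 q hq]
  · by_cases hq : q = k
    · subst hq
      exact AlternatingMap.ext fun v => by rw [← Frm.evC_im, Frm.evC_dg, Frm.evC_im]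
    · rw [(h1 (Frm.dg_mem k a)).2 q hq, h.2 q hq]

variable {n : ℕ} {M : Type} [TopologicalSpace M] {A : Atl n M}

theorem mem_Zk_iff {k : ℕ} {u : FS A} : u ∈ Zk A k ↔ dF A u = 0 ∧ DgF k u := by
  rw [mem_Zk]
  refine and_congr_right fun _ => ⟨fun h i z _ => mem_Dg_iff_degC.1 (h i z), fun h i z => ?_⟩
  by_cases hz : z ∈ (A.e i).target
  · exact mem_Dg_iff_degC.2 (h i z hz)
  · rw [u.off hz]
    exact zero_mem _

variable [CompactSpace M]

theorem Zk_le {k : ℕ} {u : FS A} (hu : u ∈ Zk A (2 * k)) : u ∈ ZF A :=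
  ⟨FS.ext' fun i z _ => by
    rw [invF_apply, Frm.invC_of_Dg ((mem_Zk.1 hu).2 i z), pow_mul, neg_one_sq, one_pow, one_smul],
    (mem_Zk.1 hu).1⟩

/-- the even Betti numbers -/
theorem bet_eq (ε : Emb A E) (k : ℕ) : Lat.bet A (2 * k) = finrank ℂ (HD ε.X (2 * k)) := by
  let φ : Zk A (2 * k) →ₗ[ℂ] HD ε.X (2 * k) :=
    { toFun := fun u => ⟨toH ε ⟨u.1, Zk_le u.2⟩, toH_mem_HD ε (mem_Zk_iff.1 u.2).2⟩
      map_add' := fun u v => Subtype.ext (map_add (toH ε) ⟨u.1, Zk_le u.2⟩ ⟨v.1, Zk_le v.2⟩)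
      map_smul' := fun c u => Subtype.ext (map_smul (toH ε) c ⟨u.1, Zk_le u.2⟩) }
  have h1 : Function.Surjective φ := by
    rintro ⟨a, ha⟩
    obtain ⟨u, hu, rfl⟩ := (mem_HD_iff ε).1 ha
    exact ⟨⟨u.1, mem_Zk_iff.2 ⟨u.2.2, hu⟩⟩, rfl⟩
  have h2 : (LinearMap.range (dF A)).comap (Zk A (2 * k)).subtype = LinearMap.ker φ := by
    ext u
    rw [LinearMap.mem_ker, Subtype.ext_iff]
    exact (toH_eq_zero_iff ε (u := ⟨u.1, Zk_le u.2⟩)).symm
  rw [Lat.bet, ← (φ.quotKerEquivOfSurjective h1).finrank_eq]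
  exact (Submodule.quotEquivOfEq _ _ h2).finrank_eq

theorem noeA : NoeAStmt := noeA_of RR.rrStmt

/-- **Noether's formula** for the de Rham theory -/
theorem noe_th (h1 : EulStmt) (h2 : IrrStmt) (typ : ∀ X : SV, ℕ → ℕ → Submodule ℂ (HP X.P))
    (c1 : ∀ X : SV, BD ℂ X.F → HP X.P) (Lam : ∀ X : SV, AddSubgroup (HP X.P)) :
    (thOf typ c1 Lam).NOE := by
  intro X b
  obtain ⟨Y⟩ := nonempty_AnP X.P b
  have h := noe_of h1 h2 noeA b Y
  rw [show Lat.bet Y.A 2 = _ from bet_eq (emb Y) 1] at h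
  exact h

end Crest.Agent.X262.Noe83
end
end

-- ▼ part X262/Q74/Odd

/-!
# Row 262, COH (helper74): varieties without regular one-forms

* `ex_one`, `ex_odd` : closed one-forms (odd forms on a surface) in `FS X.A` are exact;
* `coh_one`, `coh_odd` : the same for real ambient forms on `ε.X`; `coh_one_XP`, `coh_odd_XP`.
-/

set_option autoImplicit false

open Set Module
open scoped KaehlerDifferential

noncomputable section

namespace Crest.Agent.X262.Q74

open Crest.Agent.X277.Lef Crest.Agent.X277.AN.G1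
open Crest.Agent.R275.Geo
open Crest.Agent.R208 Crest.Agent.R208.F Crest.Agent.R208.FI Crest.Agent.R208.CW Crest.Agent.R208.T
open Crest.Agent.X262.Kah Crest.Agent.X262.Kah.Fib
open Crest.Agent.X262.Coh (sv)
open Crest.Agent.X262.Man (Emb)

theorem exists_io {E : Type*} [NormedAddCommGroup E] [NormedSpace ℝ E] [FiniteDimensional ℝ E]
    {c : Ext E} (h : IsDeg 1 c) : ∃ l, c = io l := by
  refine ⟨((AlternatingMap.ofSubsingleton ℝ E ℝ (0 : Fin 1)).symm (evA E 1 c)), ?_⟩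
  rw [← sub_eq_zero]
  refine eq_zero_of_evA fun q => ?_
  rw [map_sub, sub_eq_zero]
  by_cases hq : q = 1
  · subst hq
    ext v
    rw [evA_io, AlternatingMap.ofSubsingleton_symm_apply_apply]
    exact congrArg _ (funext fun i => congrArg v (Subsingleton.elim _ _))
  · have h1 := (show IsDeg 0 (1 : Ext E) from IsDeg.iMulti (p := 0) Fin.elim0).io_mul
      ((AlternatingMap.ofSubsingleton ℝ E ℝ (0 : Fin 1)).symm (evA E 1 c))
    rw [mul_one] at h1
    rw [h q hq, h1 q hq]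

theorem pr_one {n : ℕ} {c : Ext (Cn n)} (h : IsDeg 1 c) :
    prZ 1 0 (Cx.ofR c) + prZ 0 1 (Cx.ofR c) = (Cx.ofR c : Fb n) := by
  obtain ⟨l, rfl⟩ := exists_io h
  rw [← cv_ofReal, cv_eq_sum]
  simp only [map_sum, map_add, map_smul, prZ_of_mem (dz_mem _), prZ_of_mem (dzb_mem _),
    ← Finset.sum_add_distrib]
  simp


variable {F : Type} [Field F] [Algebra ℂ F] {P : PModel ℂ F} {n : ℕ}

/-- the Kaehler package of the Fubini-Study metric -/
abbrev kpX (X : AnP P n) : KP n (FS X.A) := kp X.PA (R273.FS_333.fsKah X.Pr)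

theorem hol_zero {X : AnP P n} (b : Basis (Fin n) F Ω[F⁄ℂ]) (h0 : (sv P).R1 = ⊥) (z : FS X.A)
    (h1 : (kpX X).Ty 1 0 z) (h2 : (kpX X).db z = 0) : z = 0 :=
  IsH1.eq_zero b ⟨(KF.kp_Ty _ _ (p := 1) (q := 0)).1 h1, h2⟩ h0

theorem ex_one {X : AnP P n} (b : Basis (Fin n) F Ω[F⁄ℂ]) (h0 : (sv P).R1 = ⊥) {a : FS X.A}
    (ha : dF X.A a = 0) (h1 : ∀ i, ∀ z ∈ (X.A.e i).target,
      prZ 1 0 (a.1 i z) + prZ 0 1 (a.1 i z) = a.1 i z) : ∃ v, dF X.A v = a := by
  obtain ⟨v, hv⟩ := (kpX X).ex_one (hol_zero b h0) ((KF.kp_d _ _ a).trans ha) (FS.ext' h1)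
  exact ⟨v, (KF.kp_d _ _ v).symm.trans hv⟩


section Real

variable {M : Type} [TopologicalSpace M] [CompactSpace M] {A : Atl n M}
  {E : Type} [NormedAddCommGroup E] [NormedSpace ℝ E] [FiniteDimensional ℝ E] (ε : Emb A E)
  {u : E → Ext E}

omit [CompactSpace M] in
theorem smo_ofR (hu : Sm ε.X u) : Smo ε.X fun x => Cx.ofR (u x) :=
  fun x hx => ⟨hu x hx, contDiffAt_const⟩

theorem dF_res (hu : Sm ε.X u) (hc : Cl ε.X u) : dF A (res0 ε _ (smo_ofR ε hu)) = 0 := by
  rw [← res0_d, ← res0_zero ε, res0_eq_iff]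
  intro x hx
  rw [map_zero]
  refine Cx.ext (hc x hx) ?_
  change pb _ (F.d (fun _ => 0) x) = 0
  rw [d_const, map_zero]

theorem coh_of_dF (hu : Sm ε.X u) {v : FS A} (hv : dF A v = res0 ε _ (smo_ofR ε hu)) :
    Coh ε.X u 0 := by
  obtain ⟨ξ, h, rfl⟩ := exists_res0 ε v
  rw [← res0_d, res0_eq_iff] at hv
  refine ⟨fun x => (ξ x).re, fun x _ => (h x).re, eqv_iff.2 fun x hx => ?_⟩
  rw [sub_zero]
  exact (congrArg Cx.re (hv x hx)).symm

end Real

variable {E : Type} [NormedAddCommGroup E] [NormedSpace ℝ E] [FiniteDimensional ℝ E]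
  {u : E → Ext E}

/-- **closed one-forms are exact** -/
theorem coh_one {X : AnP P n} (b : Basis (Fin n) F Ω[F⁄ℂ]) (h0 : (sv P).R1 = ⊥) (ε : Emb X.A E)
    (hu : Sm ε.X u) (hc : Cl ε.X u) (h1 : T.Hom 1 u) : Coh ε.X u 0 := by
  obtain ⟨v, hv⟩ := ex_one b h0 (dF_res ε hu hc) fun i z hz => by
    rw [res0_apply ε _ hz, show pullC (ε.par i) (fun x => Cx.ofR (u x)) z =
      Cx.ofR (pull (ε.par i) u z) from Cx.ext rfl (map_zero _)]
    exact pr_one ((h1 _).pb _)
  exact coh_of_dF ε hu hv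


theorem coh_one_XP (h0 : (sv P).R1 = ⊥) {u : Man.Hm P.N → Ext (Man.Hm P.N)}
    (hu : Sm (Man.XP P) u) (hc : Cl (Man.XP P) u) (h1 : T.Hom 1 u) : Coh (Man.XP P) u 0 := by
  obtain ⟨b⟩ := exists_basis P
  obtain ⟨X⟩ := nonempty_AnP P b
  exact coh_one b h0 (Man.emb X) hu hc h1


end Crest.Agent.X262.Q74
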